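import Crest.Agent.X261.Fol.Main_Mg
import Crest.Agent.X261.Rn93.Pol_Mg
import Crest.Agent.X261.Obs.A
import Crest.Agent.R273.UCovA_914
import Crest.Agent.R275.ProdAtl_363
import Crest.Agent.X261.Cov.P
import Crest.Agent.X261.Gr.AttA
import Crest.Agent.X261.Ans.HkE
import Crest.Agent.X261.Psh.Bom
import Crest.Agent.R271.L0_934
import Crest.Agent.X261.Ans.Comp
import Crest.Agent.X261.Ans.Man1
import Crest.Agent.X261.BT.Defs
import Crest.Agent.X261.Top.Defs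
import Crest.Agent.X261.Cov.U
import Crest.Agent.X261.Ans.Man3
import Crest.Agent.X261.Frb.Main
import Crest.Agent.X261.Ans.Defs2
import Crest.Agent.X261.Ans.Man2
import Crest.Agent.X261.Sk.Defs
import Crest.Agent.X261.Ans.EqvD
import Crest.Agent.X261.Ans.Dec
import Crest.Agent.X261.Ans.Eqv
import Crest.Agent.X261.GrL.Lim
import Crest.Agent.X261.Gr.Vol

-- ▼ part X261/Sk/Fin
section

/-!
# Row 261, SKELETON (helper52), file `Fin`: the proved packages are plugged in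
-/

set_option autoImplicit false

namespace Crest.Agent.X261.Sk

theorem polSh : Rn.PolSh := fun _ _ _ _ _ _ _ _ _ _ _ _ F h T hw h0 hS =>
  Rn93.pol_of_shell F h T hw h0 hS

theorem relnA (hQ : Eqv.EqvStmt) : Rn.RelnAStmt := Rn.relnA_of (Rn.relnB_of hQ) polSh

/-- what is left -/
theorem final_of (hG : GredK) (hE : EnK) (hQ : Eqv.EqvStmt) (hB : HalfB) (hJ : JetK) :
    E0.MainStmt :=
  main_of kpStmt hG Fol.folStmt hE (relnA hQ) hB hJ

end Crest.Agent.X261.Sk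
end

-- ▼ part X261/Obs/B
section

/-!
# X261 / OBS (helper42), part B: the diagonal in a covering of `X × X`

`D : MonD (A.prod A) G`, `v : F` fixed by the cocycle along the diagonal (`Fix D v`).

* `dg D v : X → D.cov F` the lifted diagonal, `Ud`, `Fd` its local equations, `eqs_dg`;
* `exists_obst_dg` : hard obstacles with a pole along the lifted diagonal.
-/

set_option autoImplicit false
set_option linter.unusedSectionVars false

open Set Filter Topology Metric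

namespace Crest.Agent.X261.Obs

open Crest.Agent.R275.Geo Crest.Agent.R275.Prod363 Crest.Agent.R273.UCov_914
open Crest.Agent.R281.Kp_487 (KP)
open Crest.Agent.X261.BT

noncomputable section

variable {n : ℕ} {X : Type} [TopologicalSpace X] {A : Atl n X} {G : Type} [Group G]
  (D : MonD (A.prod A) G) {F : Type} [MulAction G F] (v : F)

/-- the cocycle fixes `v` along the diagonal -/
def Fix : Prop := ∀ i j x, x ∈ (A.e i).source → x ∈ (A.e j).source →
  D.c (i, i) (j, j) (x, x) • v = v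

/-- the lifted diagonal -/
def dg (x : X) : D.cov F := D.pt ((A.cover x).choose, (A.cover x).choose) v (x, x)

/-- the sheets along the lifted diagonal -/
def Ud (i : A.ι) : Set (D.cov F) := D.sheet (i, i) v

/-- the equations of the lifted diagonal -/
def Fd (i : A.ι) (e : D.cov F) : Cn n := A.e i (D.pr e).1 - A.e i (D.pr e).2

variable {D v}

@[simp] theorem pr_dg (x : X) : D.pr (dg D v x) = (x, x) := rfl

theorem Fix.dg_eq (h : Fix D v) {i : A.ι} {x : X} (hx : x ∈ (A.e i).source) :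
    dg D v x = D.pt (i, i) v (x, x) := by
  have h1 := (A.cover x).choose_spec
  rw [dg, D.pt_eq (j := (i, i)) v ⟨h1, h1⟩ ⟨hx, hx⟩, h _ _ x h1 hx]

theorem Fix.mem_Ud (h : Fix D v) {i : A.ι} {x : X} (hx : x ∈ (A.e i).source) :
    dg D v x ∈ Ud D v i := by
  rw [h.dg_eq hx]
  exact D.pt_mem_sheet (i := (i, i)) v ⟨hx, hx⟩

theorem Fix.continuous_dg (h : Fix D v) : Continuous (dg D v) := by
  refine continuous_iff_continuousAt.2 fun x => ?_
  obtain ⟨i, hi⟩ := A.cover x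
  have h1 : ContinuousAt (fun y : X => D.pt (i, i) v (y, y)) x :=
    ContinuousAt.comp (g := D.pt (i, i) v) (f := fun y : X => (y, y))
      ((D.continuousOn_pt (i, i) v).continuousAt
        (((A.prod A).e (i, i)).open_source.mem_nhds ⟨hi, hi⟩)) (by fun_prop)
  refine h1.congr ?_
  filter_upwards [(A.e i).open_source.mem_nhds hi] with y hy
  exact (h.dg_eq hy).symm

theorem Fix.mem_range (h : Fix D v) {i : A.ι} {e : D.cov F} (he : e ∈ Ud D v i) :
    e ∈ range (dg D v) ↔ (D.pr e).1 = (D.pr e).2 := by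
  constructor
  · rintro ⟨x, rfl⟩
    rfl
  · intro h1
    refine ⟨(D.pr e).1, ?_⟩
    rw [h.dg_eq he.1.1, show ((D.pr e).1, (D.pr e).1) = D.pr e from Prod.ext rfl h1]
    exact D.pt_of_mem he

theorem holW_Fd (i : A.ι) : HolW (D.atl F) (Ud D v i) (Fd D i) := by
  rintro ⟨⟨j, k⟩, w⟩
  have h1 := (A.holo j i).comp (s := chU (D.atl F) (Ud D v i) ((j, k), w))
    (fstL n n).differentiable.differentiableOn fun z hz => ⟨hz.1.1, hz.2.1.1⟩
  have h2 := (A.holo k i).comp (s := chU (D.atl F) (Ud D v i) ((j, k), w))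
    (sndL n n).differentiable.differentiableOn fun z hz => ⟨hz.1.2, hz.2.1.2⟩
  exact h1.sub h2

/-- chart changes are locally Lipschitz -/
theorem exists_lip (A : Atl n X) {i j : A.ι} {x : X} (hi : x ∈ (A.e i).source)
    (hj : x ∈ (A.e j).source) : ∃ C : ℝ, ∀ᶠ p : X × X in 𝓝 (x, x),
      ‖A.e i p.1 - A.e i p.2‖ ≤ C * ‖A.e j p.1 - A.e j p.2‖ := by
  obtain ⟨K, t, ht, hK⟩ := ((R281.Kp_487.Tm_hol (A := A) ⟨hj, hi⟩).of_le
    (m := 1) (by exact_mod_cast le_top)).exists_lipschitzOnWith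
  have h1 : ∀ᶠ y in 𝓝 x, y ∈ (A.e j).source ∧ A.e j y ∈ t :=
    ((A.e j).open_source.eventually_mem hj).and (((A.e j).continuousAt hj).eventually ht)
  refine ⟨K, ?_⟩
  filter_upwards [(continuous_fst.tendsto (x, x)).eventually h1,
    (continuous_snd.tendsto (x, x)).eventually h1] with p h2 h3
  have h4 := hK.norm_sub_le h2.2 h3.2
  rwa [(A.e j).left_inv h2.1, (A.e j).left_inv h3.1] at h4

theorem Fix.eqs (h : Fix D v) : Eqs (D.atl F) (range (dg D v)) (Ud D v) (Fd D) where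
  opn i := D.isOpen_sheet _ _
  cov := by
    rintro _ ⟨x, rfl⟩
    obtain ⟨i, hi⟩ := A.cover x
    exact ⟨i, h.mem_Ud hi⟩
  hol := holW_Fd
  zero i e he := by
    rw [h.mem_range he, Fd, sub_eq_zero]
    exact ⟨(A.e i).injOn he.1.1 he.1.2, fun h1 => by rw [h1]⟩
  cmp := by
    rintro i j _ ⟨x, rfl⟩ hi hj
    obtain ⟨C, hC⟩ := exists_lip A (x := x) hi.1.1 hj.1.1
    exact ⟨C, (D.continuous_pr.tendsto (dg D v x)).eventually hC⟩

/-- **OBS**: hard obstacles along the lifted diagonal -/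
theorem Fix.exists_obst [CompactSpace X] [T2Space X] (h : Fix D v) {H : KP (D.atl F)}
    (hH : H.Pos) : ∃ (C : ℝ) (O L : Set (D.cov F)), 0 ≤ C ∧ ∀ c : ℝ, 0 ≤ c →
      ∃ f : ℝ → D.cov F → ℝ, Obst (sc (c * C) H) (range (dg D v)) (Ud D v) (Fd D) c O L f := by
  have : T2Space (D.cov F) := MonD.instT2SpaceCov D
  obtain ⟨C, O, L, h1, -, h2⟩ := h.eqs.exists_obst hH (isCompact_range h.continuous_dg)
    isOpen_univ (subset_univ _)
  exact ⟨C, O, L, h1, h2⟩

end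

end Crest.Agent.X261.Obs
end

-- ▼ part X261/Obs/C
section

/-!
# X261 / OBS (helper42), part C: the obstacle along the diagonal of `N = (M × M) / G`

* `eqs_Dg`, `exists_obst_N` : the instance of parts A, B on `Cov.P.Nq D`, `Cov.P.Dg D`;
* `obs` : the obstacles parametrised by their depth `s`, read in the charts of `M`.
-/

set_option autoImplicit false
set_option linter.unusedSectionVars false

open Set Filter Topology Metric

namespace Crest.Agent.X261.Obs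

open Crest.Agent.R275.Geo Crest.Agent.R275.Prod363 Crest.Agent.R273.UCov_914
open Crest.Agent.R281.Kp_487 (KP)
open Crest.Agent.X261.BT Crest.Agent.X261.Cov.P

noncomputable section

variable {n : ℕ} {X : Type} [TopologicalSpace X] {A : Atl n X} {G : Type} [Group G]
  (D : MonD A G)

theorem fix_one : Fix (prodD D D) (toBi (1 : G)) := fun i j x _ _ => by
  change toBi (D.c i j x * 1 * (D.c i j x)⁻¹) = toBi 1
  rw [mul_one, mul_inv_cancel]

/-- the sheets of `N` along the diagonal -/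
abbrev UN (i : A.ι) : Set (Nq D) := Ud (prodD D D) (toBi (1 : G)) i

/-- the equations of the diagonal of `N` -/
abbrev FN (i : A.ι) : Nq D → Cn n := Fd (prodD D D) i

theorem FN_q (i : A.ι) (x : D.cov G × D.cov G) :
    FN D i (q D x) = A.e i (D.pr x.1) - A.e i (D.pr x.2) := rfl

theorem q_mem_UN {i : A.ι × G} {e e' : D.cov G} (he : e ∈ ((D.atl G).e i).source)
    (he' : e' ∈ ((D.atl G).e i).source) : q D (e, e') ∈ UN D i.1 := by
  have h := q_mem D (p := i) (r := i) (x := (e, e')) he he'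
  rw [mul_inv_cancel] at h
  exact h

theorem q_diag (e : D.cov G) : q D (e, e) = dg (prodD D D) (toBi (1 : G)) (D.pr e) := by
  obtain ⟨i, hi⟩ := A.cover (D.pr e)
  rw [(fix_one D).dg_eq hi]
  exact ((prodD D D).pt_of_mem (q_mem_UN D (i := (i, D.co i e)) ⟨hi, rfl⟩ ⟨hi, rfl⟩)).symm

theorem range_dg : range (dg (prodD D D) (toBi (1 : G))) = Dg D := by
  refine Subset.antisymm ?_ ?_
  · rintro _ ⟨x, rfl⟩
    obtain ⟨i, -⟩ := A.cover x
    exact ⟨D.pt i 1 x, q_diag D _⟩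
  · rintro _ ⟨e, rfl⟩
    exact ⟨D.pr e, (q_diag D e).symm⟩


theorem exists_obst_N [CompactSpace X] [T2Space X] {H : KP A} (hH : H.Pos) :
    ∃ (C : ℝ) (O L : Set (Nq D)), 0 ≤ C ∧ ∀ c : ℝ, 0 ≤ c → ∃ f : ℝ → Nq D → ℝ,
      Obst (sc (c * C) (kN D H)) (Dg D) (UN D) (FN D) c O L f :=
  range_dg D ▸ (fix_one D).exists_obst (pos_N D hH)

/-- **OBS**, parametrised by the depth and read in the charts of `M` -/
theorem obs [CompactSpace X] [T2Space X] {H : KP A} (hH : H.Pos) (c : ℝ) (hc : 0 ≤ c) :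
    ∃ (a : ℝ) (O K : Set (Nq D)) (f : ℝ → Nq D → ℝ), 1 ≤ a ∧ IsCompact K ∧ K ⊆ O ∧
      (∀ s, QP (sc a (kN D H)) O (f s)) ∧
      (∀ s, ∀ x ∈ O, x ∉ K → f s x = f 0 x ∧ 0 ≤ f s x) ∧
      (∀ x, Antitone fun s => f s x) ∧ (∀ s, 0 ≤ s → ∀ x, -s ≤ f s x) ∧
      IsCompact (closure O) ∧ Dg D ⊆ interior K ∧
      ∀ (e : D.cov G) (i : A.ι × G), e ∈ ((D.atl G).e i).source →
        ∃ C : ℝ, ∃ V ∈ 𝓝 ((D.atl G).e i e), ∀ s, 0 ≤ s → ∀ z ∈ V, ∀ z' ∈ V, z ≠ z' →
          q D (((D.atl G).e i).symm z, ((D.atl G).e i).symm z') ∈ O ∧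
          f s (q D (((D.atl G).e i).symm z, ((D.atl G).e i).symm z')) ≤
            max (c * Real.log ‖z - z'‖ + C) (-s) := by
  obtain ⟨C, O, L, hC, h⟩ := exists_obst_N D hH
  have hc' : 0 < c + 1 := by linarith
  obtain ⟨f, h⟩ := h (c + 1) hc'.le
  have h0 : ∀ s : ℝ, 0 ≤ max s 0 / (c + 1) := fun s => div_nonneg (le_max_right _ _) hc'.le
  have h1 : ∀ s : ℝ, 0 ≤ s → (c + 1) * (max s 0 / (c + 1)) = s := fun s hs => by
    rw [max_eq_left hs, mul_div_cancel₀ _ hc'.ne']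
  refine ⟨max ((c + 1) * C) 1, O, L, fun s => f (max s 0 / (c + 1)), le_max_right _ _, h.Lc,
    h.LO, fun s => QP.sc_le (pos_semi (pos_N D hH)) (h.qp _) (le_max_left _ _),
    fun s x hx hL => h.off _ _ (h0 s) (h0 0) x hx hL, fun x s s' hs => h.anti x
      (div_le_div_of_nonneg_right (max_le_max hs le_rfl) hc'.le), fun s hs x => ?_, h.cpt, h.sub,
    fun e i he => ?_⟩
  · have h2 := h.ge (max s 0 / (c + 1)) x
    rwa [h1 s hs] at h2
  · have hO : q D (e, e) ∈ O := h.LO (interior_subset (h.sub ⟨e, rfl⟩))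
    obtain ⟨b, hb⟩ := h.sharp i.1 _ hO (q_mem_UN D he he)
    have h2 : ContinuousAt ((D.atl G).e i).symm ((D.atl G).e i e) :=
      ((D.atl G).e i).continuousAt_symm (((D.atl G).e i).map_source he)
    have h3 : Tendsto (fun p : Cn n × Cn n =>
        q D (((D.atl G).e i).symm p.1, ((D.atl G).e i).symm p.2))
        (𝓝 ((D.atl G).e i e) ×ˢ 𝓝 ((D.atl G).e i e)) (𝓝 (q D (e, e))) := by
      refine ((continuous_q D).tendsto (e, e)).comp ?_
      have h4 := h2.tendsto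
      rw [((D.atl G).e i).left_inv he] at h4
      exact (h4.comp tendsto_fst).prodMk_nhds (h4.comp tendsto_snd)
    obtain ⟨V, hV, hV'⟩ := (eventually_prod_self_iff
      (r := fun z z' => q D (((D.atl G).e i).symm z, ((D.atl G).e i).symm z') ∈ O ∧
        ∀ s r : ℝ, 0 < r → ‖FN D i.1 (q D (((D.atl G).e i).symm z, ((D.atl G).e i).symm z'))‖ ≤ r →
          f s (q D (((D.atl G).e i).symm z, ((D.atl G).e i).symm z')) ≤
            max ((c + 1) * Real.log r + b) (-((c + 1) * s)))).1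
      (h3.eventually ((h.opn.eventually_mem hO).and hb))
    refine ⟨b, V ∩ ((D.atl G).e i).target ∩ ball ((D.atl G).e i e) (1 / 2),
      inter_mem (inter_mem hV (((D.atl G).e i).open_target.mem_nhds
        (((D.atl G).e i).map_source he))) (ball_mem_nhds _ one_half_pos),
      fun s hs z hz z' hz' hne => ⟨(hV' z hz.1.1 z' hz'.1.1).1, ?_⟩⟩
    have h5 : 0 < ‖z - z'‖ := norm_pos_iff.2 (sub_ne_zero.2 hne)
    have h6 : ‖z - z'‖ ≤ 1 := by
      rw [← dist_eq_norm]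
      linarith [dist_triangle_right z z' ((D.atl G).e i e), mem_ball.1 hz.2, mem_ball.1 hz'.2]
    have h7 : FN D i.1 (q D (((D.atl G).e i).symm z, ((D.atl G).e i).symm z')) = z - z' := by
      rw [FN_q]
      exact congrArg₂ (· - ·) ((A.e i.1).right_inv hz.1.2) ((A.e i.1).right_inv hz'.1.2)
    have h8 := (hV' z hz.1.1 z' hz'.1.1).2 (max s 0 / (c + 1)) _ h5 (by rw [h7])
    rw [h1 s hs] at h8
    refine h8.trans (max_le_max ?_ le_rfl)
    have := Real.log_nonpos h5.le h6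
    linarith

end

end Crest.Agent.X261.Obs
end

-- ▼ part X261/Gr/AttB
section

/-!
# Row 261, package GR, file `AttB` (helper57): attenuation of singularities

* `att_irr` : on a compact irreducible analytic set, a big pole at one point forces a pole of order
  `j` at all points (Kiselman's minimum principle and the Harnack inequality);
* `att_conn` : the same on a connected finite union of such sets.
-/

set_option autoImplicit false
set_option linter.unusedSectionVars false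

open Set Filter Topology Metric

noncomputable section

namespace Crest.Agent.X261.Gr.Att

open Crest.Agent.X261.Psh Crest.Agent.X261.Psh.Kis Crest.Agent.X261.Ans

variable {E : Type} [NormedAddCommGroup E] [NormedSpace ℂ E] [FiniteDimensional ℂ E]
  {P : Type} [TopologicalSpace P] {A : HA E P} {h : A.ι → P → ℝ}

/-- uniform comparison of two charts near a compact set -/
theorem unif_cmp (hh : ∀ i, ContinuousOn (h i) (A.e i).source) {i k : A.ι} {K : Set P}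
    (hK : IsCompact K) (hKs : K ⊆ (A.e i).source ∩ (A.e k).source) :
    ∀ᶠ L : ℝ in atTop, ∀ p ∈ K, ∀ y, ‖y - A.e k p‖ ≤ Real.exp (-L) →
      (A.e k).symm y ∈ (A.e i).source ∧
      ‖A.e i ((A.e k).symm y) - A.e i p‖ ≤ Real.exp L * ‖y - A.e k p‖ ∧
      h k ((A.e k).symm y) ≤ h i ((A.e k).symm y) + L := by
  refine hK.induction_on (p := fun S => ∀ᶠ L : ℝ in atTop, ∀ p ∈ S, ∀ y,
    ‖y - A.e k p‖ ≤ Real.exp (-L) → (A.e k).symm y ∈ (A.e i).source ∧
      ‖A.e i ((A.e k).symm y) - A.e i p‖ ≤ Real.exp L * ‖y - A.e k p‖ ∧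
      h k ((A.e k).symm y) ≤ h i ((A.e k).symm y) + L) (by simp)
    (fun _ _ hST hT => hT.mono fun L hL p hp => hL p (hST hp))
    (fun _ _ hS hT => (hS.and hT).mono fun L hL p hp => hp.elim (hL.1 p) (hL.2 p)) fun x hx => ?_
  obtain ⟨hi, hk⟩ := hKs hx
  obtain ⟨L₀, hL₀, N, hN, h1, h2⟩ := exists_lip hi hk
  have h3 : ∀ᶠ q in 𝓝 x, h k q - h i q < h k x - h i x + 1 :=
    (((hh k).continuousAt (HA.ev_source hk)).sub
      ((hh i).continuousAt (HA.ev_source hi))).eventually (gt_mem_nhds (lt_add_one _))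
  obtain ⟨ε, hε, h4⟩ := Metric.eventually_nhds_iff.1
    (((HA.ev_chart hk).1 (h3.and hN)).and (HA.ev_target hk))
  refine ⟨_, mem_nhdsWithin_of_mem_nhds (inter_mem hN
    ((HA.ev_chart' hk).1 (ball_mem_nhds _ (half_pos hε)))), ?_⟩
  filter_upwards [Real.tendsto_exp_neg_atTop_nhds_zero.eventually (gt_mem_nhds (half_pos hε)),
    Real.tendsto_exp_atTop.eventually_ge_atTop L₀, eventually_ge_atTop (h k x - h i x + 1)]
    with L h5 h6 h7 p hp y hy
  have h8 : dist (A.e k p) (A.e k x) < ε / 2 := hp.2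
  obtain ⟨⟨h9, h10⟩, h11⟩ := h4 (y := y) (by
    linarith [dist_triangle y (A.e k p) (A.e k x), dist_eq_norm y (A.e k p)])
  refine ⟨(h1 h10).1, ?_, by linarith⟩
  have := h2 _ h10 p hp.1
  rw [(A.e k).right_inv h11] at this
  exact this.trans (mul_le_mul_of_nonneg_right h6 (norm_nonneg _))

/-- small chart balls -/
structure Bl (A : HA E P) where
  i : A.ι
  z : E
  t : ℝ
  sub : closedBall z (2 * Real.exp t) ⊆ (A.e i).target

namespace Bl

/-- the open ball -/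
def V (b : Bl A) : Set P := (A.e b.i).source ∩ A.e b.i ⁻¹' ball b.z (Real.exp b.t)

/-- the closed ball -/
def K (b : Bl A) : Set P := (A.e b.i).symm '' closedBall b.z (Real.exp b.t)

/-- the attenuated function -/
def ψ (b : Bl A) (h : A.ι → P → ℝ) (j : ℝ) (u : P → EReal) : E → EReal :=
  Lg (cw A h u b.i) b.t j

variable (b : Bl A) {u : P → EReal} {j : ℝ}

theorem isOpen_V : IsOpen b.V := (A.e b.i).isOpen_inter_preimage isOpen_ball

theorem sub' : closedBall b.z (Real.exp b.t) ⊆ (A.e b.i).target :=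
  (closedBall_subset_closedBall (by linarith [Real.exp_pos b.t])).trans b.sub

theorem isCompact_K : IsCompact b.K := by
  have : ProperSpace E := FiniteDimensional.proper ℂ E
  exact (isCompact_closedBall _ _).image_of_continuousOn
    ((A.e b.i).continuousOn_symm.mono b.sub')

theorem V_sub : b.V ⊆ b.K := fun p hp =>
  ⟨A.e b.i p, ball_subset_closedBall hp.2, (A.e b.i).left_inv hp.1⟩

theorem K_sub : b.K ⊆ (A.e b.i).source := by
  rintro _ ⟨y, hy, rfl⟩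
  exact (A.e b.i).map_target (b.sub' hy)

theorem cb {x : E} (hx : x ∈ ball b.z (Real.exp b.t)) :
    closedBall x (Real.exp b.t) ⊆ closedBall b.z (2 * Real.exp b.t) :=
  closedBall_subset_closedBall' (by linarith [mem_ball.1 hx])

theorem psh (hu : QW A h u) (j : ℝ) : IsPsh (ball b.z (Real.exp b.t)) (b.ψ h j u) :=
  lg_psh (A.e b.i).open_target (hu b.i) isOpen_ball (fun _ hx => (b.cb hx).trans b.sub) j

theorem bdd (hu : QW A h u) (j : ℝ) :
    ∀ᶠ C : ℝ in atTop, ∀ x ∈ ball b.z (Real.exp b.t), b.ψ h j u x ≤ C := by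
  have : ProperSpace E := FiniteDimensional.proper ℂ E
  obtain ⟨C, hC⟩ := exists_bound (isCompact_closedBall b.z (2 * Real.exp b.t))
    ((hu b.i).usc.mono b.sub) fun x hx => (hu b.i).lt_top x (b.sub hx)
  filter_upwards [eventually_ge_atTop (C - j * b.t)] with C' hC' x hx
  exact (lg_le le_rfl fun y hy => hC y (b.cb hx hy)).trans (EReal.coe_le_coe_iff.2 hC')

theorem cmp [T2Space P] (hh : ∀ i, ContinuousOn (h i) (A.e i).source) (a b : Bl A) (j : ℝ) :
    ∀ᶠ B : ℝ in atTop, ∀ u, ∀ p ∈ a.V, p ∈ b.V →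
      b.ψ h j u (A.e b.i p) ≤ a.ψ h j u (A.e a.i p) + B := by
  obtain ⟨L, h1, hL⟩ := ((unif_cmp hh (a.isCompact_K.inter b.isCompact_K)
    (inter_subset_inter a.K_sub b.K_sub)).and (eventually_ge_atTop 0)).exists
  filter_upwards [eventually_ge_atTop (L + j * (L + |a.t| + |b.t|))] with B hB u p hp hp'
  have h2 := le_abs_self a.t
  have h3 := neg_abs_le b.t
  have h4 := abs_nonneg a.t
  have h5 := abs_nonneg b.t
  refine (lg_cmp (L := L + |a.t| + |b.t|) (H := L) (by linarith) fun s hs y hy => ?_).trans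
    (add_le_add_right (EReal.coe_le_coe_iff.2 hB) _)
  rw [mem_closedBall_iff_norm] at hy
  obtain ⟨h6, h7, h8⟩ := h1 p ⟨a.V_sub hp, b.V_sub hp'⟩ y
    (hy.trans (Real.exp_le_exp.2 (by linarith)))
  refine ⟨A.e a.i ((A.e b.i).symm y), mem_closedBall_iff_norm.2 (h7.trans ?_), ?_⟩
  · refine (mul_le_mul_of_nonneg_left hy (Real.exp_pos L).le).trans ?_
    rw [← Real.exp_add]
    exact Real.exp_le_exp.2 (by linarith)
  · simp only [cw, (A.e a.i).left_inv h6]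
    rw [add_assoc, ← EReal.coe_add]
    exact add_le_add_right (EReal.coe_le_coe_iff.2 h8) _

end Bl

theorem exists_bl (A : HA E P) (p : P) : ∃ b : Bl A, p ∈ b.V := by
  obtain ⟨i, hi⟩ := A.cover p
  obtain ⟨ε, hε, h1⟩ := Metric.nhds_basis_closedBall.mem_iff.1 (HA.ev_target hi)
  refine ⟨⟨i, A.e i p, Real.log (ε / 2), ?_⟩, hi, mem_ball_self (Real.exp_pos _)⟩
  rw [Real.exp_log (half_pos hε), mul_div_cancel₀ _ two_ne_zero]
  exact h1

/-- big poles at `p` force poles of order `j` on `S`, uniformly for all quasi-psh functions -/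
def Frc (A : HA E P) (h : A.ι → P → ℝ) (p : P) (S : Set P) : Prop :=
  ∀ j : ℝ, ∀ᶠ c : ℝ in atTop, ∀ u, QW A h u → Pole A u p c → ∀ q ∈ S, Pole A u q j

theorem frc_of {p : P} {S : Set P} (H : ∀ j : ℝ, 0 ≤ j → ∃ c : ℝ, ∀ u, QW A h u → Pole A u p c →
    ∀ q ∈ S, Pole A u q j) : Frc A h p S := fun j => by
  obtain ⟨c, hc⟩ := H (max j 0) (le_max_right _ _)
  filter_upwards [eventually_ge_atTop c] with c' hc' u hu hp q hq
  exact (hc u hu (hp.mono hc') q hq).mono (le_max_left _ _)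

theorem Frc.trans {p q : P} {S T : Set P} (H : Frc A h p S) (hq : q ∈ S) (H' : Frc A h q T) :
    Frc A h p T := fun j => by
  obtain ⟨c, hc⟩ := (H' j).exists
  exact (H c).mono fun c' hc' u hu hp => hc u hu (hc' u hu hp q hq)

theorem Frc.mono {p : P} {S T : Set P} (H : Frc A h p S) (hT : T ⊆ S) : Frc A h p T :=
  fun j => (H j).mono fun _ hc u hu hp q hq => hc u hu hp q (hT hq)

theorem frc_sUnion {p : P} {𝒮 : Set (Set P)} (h𝒮 : 𝒮.Finite) (H : ∀ S ∈ 𝒮, Frc A h p S) :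
    Frc A h p (⋃₀ 𝒮) := fun j =>
  (h𝒮.eventually_all.2 fun S hS => H S hS j).mono fun _ hc u hu hp _ ⟨S, hS, hq⟩ =>
    hc S hS u hu hp _ hq

/-- **attenuation** on a compact irreducible analytic set -/
theorem att_irr [T2Space P] (hh : ∀ i, ContinuousOn (h i) (A.e i).source)
    {Y : Set P} {d : ℕ} (hY : A.Irr univ Y d) (hK : IsCompact Y) {p₀ : P} (hp₀ : p₀ ∈ Y) :
    Frc A h p₀ Y := by
  refine frc_of fun j hj => ?_
  rcases subsingleton_or_nontrivial E with hE | hE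
  · exact ⟨0, fun u _ _ q _ => pole_of_subsingleton A u q j⟩
  choose b hb using exists_bl A
  obtain ⟨T, -, hT⟩ := hK.elim_nhds_subcover (fun p => (b p).V)
    fun p _ => (b p).isOpen_V.mem_nhds (hb p)
  have hcov : ∀ p ∈ Y, ∃ a : T, p ∈ (b a).V := fun p hp => by simpa using hT hp
  obtain ⟨B, hB, hB0⟩ := ((eventually_all.2 fun a : T => eventually_all.2 fun a' : T =>
    Bl.cmp hh (b a) (b a') j).and (eventually_ge_atTop 0)).exists
  set ψ : {u // QW A h u} → P → EReal := fun u p =>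
    ⨆ (a : T) (_ : p ∈ (b a).V), (b a).ψ h j u.1 (A.e (b a).i p) with hψ
  have h1 : ∀ u (a : T), ∀ p ∈ (b a).V, (b a).ψ h j u.1 (A.e (b a).i p) ≤ ψ u p :=
    fun u a p hp => le_iSup₂_of_le a hp le_rfl
  have h2 : ∀ u (a : T), ∀ p ∈ (b a).V, ψ u p ≤ (b a).ψ h j u.1 (A.e (b a).i p) + B :=
    fun u a p hp => iSup₂_le fun a' hp' => hB a a' u.1 p hp hp'
  have hQ : ∀ z ∈ univ ∩ Y, ∃ i, Hk.QL A (univ ∩ Y) ψ (fun _ => 1) z i := fun z hz => by
    obtain ⟨a, ha⟩ := hcov z hz.2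
    refine ⟨(b a).i, ha.1, _, isOpen_ball, ha.2, B, hB0, fun u => ⟨_, (b a).psh u.2 j,
      fun y _ h3 h4 => ?_⟩⟩
    rw [mul_one]
    exact ⟨h2 u a y ⟨h3, h4⟩,
      (h1 u a y ⟨h3, h4⟩).trans (le_add_of_nonneg_right (EReal.coe_nonneg.2 hB0))⟩
  obtain ⟨a₀, ha₀⟩ := hcov p₀ hp₀
  obtain ⟨C, hC, h3⟩ := Hk.irr_pole (Hk.coverStmt E) isOpen_univ hY (fun _ => zero_le_one) hQ hK
    (fun y hy => ⟨mem_univ y, hy⟩) ⟨mem_univ p₀, hp₀⟩ ha₀.1
  have h4 := h3.self_of_nhds ⟨mem_univ p₀, hp₀⟩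
  refine ⟨j + 2 * C + 1, fun u hu hp q hq => ?_⟩
  by_contra hcon
  obtain ⟨a, ha⟩ := hcov q hq
  have h5 : (b a).ψ h j u (A.e (b a).i q) ≠ ⊥ := fun h6 => hcon ⟨_, ha.1,
    (poleC_iff_cw ha.1 ((hh _).continuousAt (HA.ev_source ha.1))).2
      (pole_of_lg (A.e _).open_target (hu _) (((b a).cb ha.2).trans (b a).sub) hj h6)⟩
  obtain ⟨M, hM⟩ := (eventually_all.2 fun a : T => (b a).bdd hu j).exists
  set m : EReal := ⨆ y ∈ Y, ψ ⟨u, hu⟩ y with hm
  have h6 : m ≠ ⊤ := ((iSup₂_le fun y _ => iSup₂_le fun a' hy => hM a' _ hy.2).trans_lt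
    (EReal.coe_lt_top M)).ne
  have h7 : m ≠ ⊥ := fun h8 => h5 (le_bot_iff.1
    ((h1 ⟨u, hu⟩ a q ha).trans ((le_biSup (ψ ⟨u, hu⟩) hq).trans h8.le)))
  lift m to ℝ using ⟨h6, h7⟩ with β hβ
  have h8 : ∃ p ∈ Y, ((β - 1 : ℝ) : EReal) ≤ ψ ⟨u, hu⟩ p := by
    have : ((β - 1 : ℝ) : EReal) < ⨆ y ∈ Y, ψ ⟨u, hu⟩ y := by
      rw [← hm]; exact EReal.coe_lt_coe_iff.2 (by linarith)
    obtain ⟨y, hy⟩ := lt_iSup_iff.1 this
    obtain ⟨hy1, hy2⟩ := lt_iSup_iff.1 hy
    exact ⟨y, hy1, hy2.le⟩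
  have hc0 : 0 ≤ j + 2 * C + 1 := by linarith
  obtain ⟨C', hC'⟩ := (poleC_iff_cw ha₀.1 ((hh _).continuousAt (HA.ev_source ha₀.1))).1
    (hp.chart hc0 ha₀.1)
  obtain ⟨ε, hε, h9⟩ := Metric.isOpen_iff.1 isOpen_ball _ ha₀.2
  have h10 := h4 ⟨u, hu⟩ β 1 (j + 2 * C + 1 - j) ((j + 2 * C + 1) * Real.log 2 + C' + B)
    zero_le_one (fun y hy => hm ▸ le_biSup (ψ ⟨u, hu⟩) hy.2) h8 (Eventually.frequently ?_)
  · linarith
  filter_upwards [lg_pole (hu _) (HA.ev_target ha₀.1) hc0 hC' (b a₀).t j,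
    nhdsWithin_le_nhds (gt_mem_nhds hε)] with r h11 h12 y _ h13 h14
  refine (h2 ⟨u, hu⟩ a₀ y ⟨h13, h9 (h14.trans h12)⟩).trans
    ((add_le_coe (h11 _ h14) le_rfl).trans (le_of_eq ?_))
  congr 1; ring

/-- **chains**: a connected finite union of closed sets with the attenuation property -/
theorem frc_conn {Z : Set P} (hZ : IsPreconnected Z) {𝒮 : Set (Set P)} (h𝒮 : 𝒮.Finite)
    (hcl : ∀ S ∈ 𝒮, IsClosed S) (hcov : Z ⊆ ⋃₀ 𝒮) (H : ∀ S ∈ 𝒮, ∀ p ∈ S, Frc A h p S) {p₀ : P}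
    (hp₀ : p₀ ∈ Z) : Frc A h p₀ Z := by
  have hf : ∀ Q : Set P → Prop, {S | S ∈ 𝒮 ∧ Q S}.Finite := fun Q => h𝒮.subset fun _ h => h.1
  have hc : ∀ Q : Set P → Prop, IsClosed (⋃₀ {S | S ∈ 𝒮 ∧ Q S}) := fun Q => by
    rw [sUnion_eq_biUnion]
    exact (hf Q).isClosed_biUnion fun S hS => hcl S hS.1
  have key := isPreconnected_iff_subset_of_disjoint_closed.1 hZ _ _ (hc (Frc A h p₀))
    (hc fun S => ¬ Frc A h p₀ S) (fun p hp => by
      obtain ⟨S, hS, h2⟩ := hcov hp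
      by_cases h3 : Frc A h p₀ S
      · exact Or.inl ⟨S, ⟨hS, h3⟩, h2⟩
      · exact Or.inr ⟨S, ⟨hS, h3⟩, h2⟩)
    (eq_empty_of_forall_notMem fun p ⟨_, ⟨S, hS, h1⟩, S', hS', h2⟩ =>
      hS'.2 (hS.2.trans h1 (H S' hS'.1 p h2)))
  rcases key with h1 | h1
  · exact (frc_sUnion (hf _) fun S hS => hS.2).mono h1
  · obtain ⟨S, hS, h2⟩ := h1 hp₀
    exact absurd (H S hS.1 p₀ h2) hS.2

end Crest.Agent.X261.Gr.Att
end
end

-- ▼ part X261/Gr/AttC
section

/-!
# Row 261, package GR, file `AttC` (helper57): poles and integrability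

* `mem_NI_of_pole`, `Pole.hni` : a pole of order `≥ 2 dim` is a point of non-integrability;
* `pole_diag` : poles along the diagonal.
-/

set_option autoImplicit false
set_option linter.unusedSectionVars false

open Set Filter Topology Metric MeasureTheory Module
open scoped ENNReal

noncomputable section

namespace Crest.Agent.X261.Gr.Att

open Crest.Agent.X261.Psh Crest.Agent.X261.Ans

variable {E : Type} [NormedAddCommGroup E] [NormedSpace ℂ E] [FiniteDimensional ℂ E]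
  {P : Type} [TopologicalSpace P] {A : HA E P}

section meas

variable [MeasurableSpace E] [BorelSpace E] (μ : Measure E) [μ.IsAddHaarMeasure]

theorem mem_NI_log [Nontrivial E] (x : E) :
    x ∈ NI μ fun y => ((2 * finrank ℂ E * Real.log ‖y - x‖ : ℝ) : EReal) := by
  intro V hV
  obtain ⟨δ, hδ, hδ'⟩ := Metric.mem_nhds_iff.1 hV
  set F : E → ℝ≥0∞ := fun y => (ENNReal.ofReal ‖y‖) ^ (-(finrank ℝ E : ℝ)) with hF
  have h2 : ∫⁻ y in ball (0 : E) δ, F y ∂μ = ∞ :=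
    R271.L934.lintegral_ball_norm_eq_top μ finrank_pos hδ
  have h3 : ∫⁻ y in ball x δ, F (y - x) ∂μ = ∫⁻ y in ball (0 : E) δ, F y ∂μ := by
    have := (measurePreserving_add_right μ x).setLIntegral_comp_emb
      (Homeomorph.addRight x).measurableEmbedding (fun y => F (y - x)) (ball 0 δ)
    simp only [add_sub_cancel_right] at this
    rw [this]
    congr 2
    ext y
    simp
  refine top_le_iff.1 (le_trans ?_ (lintegral_mono_set hδ'))
  rw [← h2, ← h3]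
  refine lintegral_mono_ae ?_
  filter_upwards [ae_restrict_of_ae (compl_mem_ae_iff.2 (measure_singleton x))] with y hyx
  have hy3 : 0 < ‖y - x‖ := norm_pos_iff.2 (sub_ne_zero.2 hyx)
  rw [hF, ← EReal.coe_neg, EReal.exp_coe]
  simp only
  rw [ENNReal.ofReal_rpow_of_pos hy3, Real.rpow_def_of_pos hy3, finrank_real_of_complex]
  refine le_of_eq ?_
  congr 2
  push_cast
  ring

theorem mem_NI_of_pole [Nontrivial E] {w : E → EReal} {x : E} {c C : ℝ}
    (hc : 2 * finrank ℂ E ≤ c)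
    (h : ∀ᶠ y in 𝓝[≠] x, w y ≤ ((c * Real.log ‖y - x‖ + C : ℝ) : EReal)) : x ∈ NI μ w := by
  refine NI_of_le_ae (C := C) ((eventually_nhdsWithin_iff.1 h).and
    (closedBall_mem_nhds x one_pos)) ?_ (mem_NI_log μ x)
  filter_upwards [compl_mem_ae_iff.2 (measure_singleton x)] with y hyx hy
  rw [← EReal.coe_add]
  refine (hy.1 hyx).trans (EReal.coe_le_coe_iff.2 ?_)
  have := Real.log_nonpos (norm_nonneg _) (mem_closedBall_iff_norm.1 hy.2)
  nlinarith

/-- a big pole is a point of non-integrability -/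
theorem Pole.hni [Nontrivial E] {u : P → EReal} {p : P} {j : ℝ} (H : Pole A u p j)
    (hj : 2 * finrank ℂ E ≤ j) : p ∈ HNI A μ u := by
  obtain ⟨i, hi, C, hC⟩ := H
  exact ⟨i, hi, mem_NI_of_pole μ hj hC⟩

end meas

theorem Pole.smul {u : P → EReal} {p : P} {j t : ℝ} (H : Pole A u p j) (ht : 0 ≤ t) :
    Pole A (fun q => (t : EReal) * u q) p (t * j) := by
  obtain ⟨i, hi, C, hC⟩ := H
  exact ⟨i, hi, t * C, hC.mono fun z hz => (coe_mul_le ht hz).trans (le_of_eq (by congr 1; ring))⟩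

theorem Pole.hni_mul [MeasurableSpace E] [BorelSpace E] (μ : Measure E) [μ.IsAddHaarMeasure]
    [Nontrivial E] {u : P → EReal} {p : P} {j t : ℝ} (H : Pole A u p j) (ht : 0 ≤ t)
    (hj : 2 * finrank ℂ E ≤ t * j) : p ∈ HNI A μ fun q => (t : EReal) * u q :=
  (H.smul ht).hni μ hj

/-- poles in terms of radii -/
theorem pole_of_radius {u : P → EReal} {p : P} {i : A.ι} (hp : p ∈ (A.e i).source) {c C : ℝ}
    (h : ∀ᶠ q in 𝓝 p, ∀ r : ℝ, 0 < r → ‖A.e i q - A.e i p‖ ≤ r →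
      u q ≤ ((c * Real.log r + C : ℝ) : EReal)) : Pole A u p c := by
  refine ⟨i, hp, (poleC_iff hp).2 ⟨C, ?_⟩⟩
  filter_upwards [nhdsWithin_le_nhds h, self_mem_nhdsWithin,
    nhdsWithin_le_nhds (HA.ev_source hp)] with q h1 h2 h3
  exact h1 _ (ne_of_ne hp h3 h2) le_rfl

/-- a pole along the diagonal is a pole at the points of the diagonal -/
theorem pole_diag {U : P × P → EReal} {x : P} {i : A.ι} (hx : x ∈ (A.e i).source) {c C : ℝ}
    (h : ∀ᶠ q : P × P in 𝓝 (x, x), ∀ r : ℝ, 0 < r → ‖A.e i q.1 - A.e i q.2‖ ≤ r →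
      U q ≤ ((c * Real.log r + C : ℝ) : EReal)) : Pole (A.prod A) U (x, x) c := by
  refine pole_of_radius (A := A.prod A) (i := (i, i)) (C := c * Real.log 2 + C) ⟨hx, hx⟩
    (h.mono fun q hq r hr h1 => ?_)
  have h2 : ‖A.e i q.1 - A.e i x‖ ≤ r := (norm_fst_le _).trans h1
  have h3 : ‖A.e i q.2 - A.e i x‖ ≤ r := (norm_snd_le _).trans h1
  refine (hq (2 * r) (by linarith) ?_).trans (le_of_eq ?_)
  · have := norm_sub_le (A.e i q.1 - A.e i x) (A.e i q.2 - A.e i x)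
    rw [sub_sub_sub_cancel_right] at this
    linarith
  · rw [Real.log_mul two_ne_zero hr.ne']
    congr 1; ring


/-- poles pull back under holomorphic maps which are injective near the point -/
theorem Pole.comp {F : Type} [NormedAddCommGroup F] [NormedSpace ℂ F] [FiniteDimensional ℂ F]
    {Q : Type} [TopologicalSpace Q] {B : HA F Q} {f : Q → P} {q : Q} (hf : B.Hol A f q)
    (hinj : ∀ᶠ y in 𝓝[≠] q, f y ≠ f q) {u : P → EReal} {c : ℝ} (H : Pole A u (f q) c)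
    (hc : 0 ≤ c) : Pole B (fun y => u (f y)) q c := by
  obtain ⟨i, hi, H⟩ := H
  obtain ⟨C, hC⟩ := (poleC_iff hi).1 H
  obtain ⟨k, hk⟩ := B.cover q
  have h1 : ContDiffAt ℂ 1 (fun z => A.e i (f ((B.e k).symm z))) (B.e k q) :=
    (hf.2 k i hk hi).contDiffAt
  obtain ⟨K, T, hT, hK⟩ := h1.exists_lipschitzOnWith
  refine ⟨k, hk, (poleC_iff hk).2 ⟨c * Real.log (K + 1) + C, ?_⟩⟩
  filter_upwards [hinj, self_mem_nhdsWithin, nhdsWithin_le_nhds (HA.ev_source hk),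
    nhdsWithin_le_nhds ((HA.ev_chart' hk).1 hT),
    nhdsWithin_le_nhds (hf.1.eventually ((eventually_nhdsWithin_iff.1 hC).and (HA.ev_source hi)))]
    with y h2 h3 h4 h5 h6
  refine (h6.1 h2).trans (EReal.coe_le_coe_iff.2 ?_)
  have h7 := hK.norm_sub_le h5 (mem_of_mem_nhds hT)
  simp only [(B.e k).left_inv h4, (B.e k).left_inv hk] at h7
  have h8 := ne_of_ne hk h4 h3
  have h9 : Real.log ‖A.e i (f y) - A.e i (f q)‖ ≤ Real.log ((K + 1) * ‖B.e k y - B.e k q‖) :=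
    Real.log_le_log (ne_of_ne hi h6.2 h2) (by nlinarith)
  rw [Real.log_mul (by positivity) h8.ne'] at h9
  nlinarith

end Crest.Agent.X261.Gr.Att
end
end

-- ▼ part X261/Gr/Att
section

/-!
# Row 261, package GR, file `Att` (helper57): attenuation along compact connected analytic sets

* `att` : big poles at one point of a compact connected analytic set force poles everywhere on it;
* `key`, `key_hni` : two points of such a set lie in the non-integrability locus of the kernels.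
-/

set_option autoImplicit false
set_option linter.unusedSectionVars false

open Set Filter Topology Metric MeasureTheory Module

noncomputable section

namespace Crest.Agent.X261.Gr.Att

open Crest.Agent.X261.Psh Crest.Agent.X261.Ans

variable {E : Type} [NormedAddCommGroup E] [NormedSpace ℂ E] [FiniteDimensional ℂ E]
  {P : Type} [TopologicalSpace P] [T2Space P] {A : HA E P}

/-- **attenuation** along a compact connected analytic set -/
theorem att {h : A.ι → P → ℝ} (hh : ∀ i, ContinuousOn (h i) (A.e i).source) {Z : Set P}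
    (hZ : A.An univ Z) (hK : IsCompact Z) (hc : IsPreconnected Z) {p₀ : P} (hp₀ : p₀ ∈ Z) (j : ℝ) :
    ∀ᶠ c : ℝ in atTop, ∀ u, QW A h u → Pole A u p₀ c → ∀ p ∈ Z, Pole A u p j := by
  refine frc_conn hc (HA.comp_finite isOpen_univ hZ hK (subset_univ _))
    (fun Y hY => (hY.1.an isOpen_univ hZ).isClosed) (fun p hp => ?_) (fun Y hY p hp => ?_) hp₀ j
  · obtain ⟨Y, hY, h1⟩ := HA.comp_cover isOpen_univ hZ (mem_univ p) hp
    exact ⟨Y, ⟨hY, p, h1, hp⟩, h1⟩
  · obtain ⟨h1, d, h2⟩ := hY.1.irr isOpen_univ hZ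
    exact att_irr hh h2 (hK.of_isClosed_subset (hY.1.an isOpen_univ hZ).isClosed h1) hp

/-- poles on the diagonal propagate to pairs of points of a compact connected analytic set -/
theorem key {h : (A.prod A).ι → P × P → ℝ} (hh : ∀ i, ContinuousOn (h i) ((A.prod A).e i).source)
    {Z : Set P} (hZ : A.An univ Z) (hK : IsCompact Z) (hc : IsPreconnected Z) {x : P} (hx : x ∈ Z)
    (j : ℝ) : ∀ᶠ c : ℝ in atTop, ∀ U, QW (A.prod A) h U → Pole (A.prod A) U (x, x) c →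
      ∀ y ∈ Z, Pole (A.prod A) U (x, y) j := by
  have h1 : (A.prod A).An univ ({x} ×ˢ Z) := fun q _ =>
    (HA.anAt_singleton A x q.1).prod (hZ q.2 (mem_univ _))
  exact (att hh h1 (isCompact_singleton.prod hK) (isPreconnected_singleton.prod hc)
    (p₀ := (x, x)) ⟨rfl, hx⟩ j).mono fun c H U hU hp y hy => H U hU hp (x, y) ⟨rfl, hy⟩


end Crest.Agent.X261.Gr.Att
end
end

-- ▼ part X261/Shaf/Defs
section

/-!
# X261/Shaf/Defs (helper55): the language of the `G`-reduction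

* `Er A x y` : `x`, `y` lie in one compact connected analytic set; `BiP Z` : proper over both factors;
* `Key A`    : `Er` is contained in countably many analytic sets of `M × M` proper over both factors;
* `QPsh`, `Pol` : quasi-psh functions with values in `[-∞, ∞)`, logarithmic poles;
* `BG H` : bounded geometry, `OSeq` : obstacle sequences;
* the statements `ProdStmt`, `ObsStmt`, `EnvStmt`, `AttStmt` and `key_of`.
-/

set_option autoImplicit false
set_option linter.unusedSectionVars false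

open Set Filter Topology Metric

namespace Crest.Agent.X261.Shaf

open Crest.Agent.X261.Ans Crest.Agent.X261.BT
open Crest.Agent.X261.Psh (IsPsh)
open Crest.Agent.R275.Geo
open Crest.Agent.R281.Kp_487 (KP)
open Crest.Agent.R257.HoB_843 (lvE)
open Crest.Agent.R275.Core144 Crest.Agent.R275.GC293
open Crest.Agent.R273.Defs_333 Crest.Agent.R273.Kah_333 Crest.Agent.R273.UCov_914

noncomputable section

section HAlevel

variable {E F : Type} [NormedAddCommGroup E] [NormedSpace ℂ E] [FiniteDimensional ℂ E]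
  [NormedAddCommGroup F] [NormedSpace ℂ F] [FiniteDimensional ℂ F]
  {M N : Type} [TopologicalSpace M] [TopologicalSpace N]

/-- `x` and `y` lie in one compact connected analytic set -/
def Er (A : HA E M) (x y : M) : Prop :=
  ∃ Z : Set M, IsCompact Z ∧ IsPreconnected Z ∧ A.An univ Z ∧ x ∈ Z ∧ y ∈ Z

/-- closed and proper over both factors -/
def BiP (Z : Set (M × M)) : Prop :=
  IsClosed Z ∧ ∀ K : Set M, IsCompact K → IsCompact (Z ∩ K ×ˢ univ) ∧ IsCompact (Z ∩ univ ×ˢ K)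

/-- `Er` is inside countably many analytic sets, proper over both factors -/
def Key (A : HA E M) : Prop :=
  ∃ Z : ℕ → Set (M × M), (∀ c, (A.prod A).An univ (Z c) ∧ BiP (Z c)) ∧
    ∀ x y, Er A x y → ∃ c, (x, y) ∈ Z c

/-- `u + h i` is psh in every chart `i` -/
def QPsh (A : HA E M) (h : A.ι → E → ℝ) (u : M → EReal) : Prop :=
  ∀ i, IsPsh (A.e i).target fun z => u ((A.e i).symm z) + (h i z : ℝ)

/-- logarithmic pole of order `c` at `x` -/
def Pol (A : HA E M) (u : M → EReal) (c : ℝ) (x : M) : Prop :=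
  ∃ i, x ∈ (A.e i).source ∧ ∃ b : ℝ, ∀ᶠ r in 𝓝[>] (0 : ℝ), ∀ z ∈ closedBall (A.e i x) r,
    u ((A.e i).symm z) ≤ ((c * Real.log r + b : ℝ) : EReal)

variable {A : HA E M} {B : HA F N}

theorem Er.refl [T2Space M] (A : HA E M) (x : M) : Er A x x :=
  ⟨{x}, isCompact_singleton, isPreconnected_singleton, fun y _ => HA.anAt_singleton A x y, rfl, rfl⟩

theorem Er.symm {x y : M} (h : Er A x y) : Er A y x := by
  obtain ⟨Z, h1, h2, h3, h4, h5⟩ := h
  exact ⟨Z, h1, h2, h3, h5, h4⟩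

theorem Er.trans {x y z : M} (h : Er A x y) (h' : Er A y z) : Er A x z := by
  obtain ⟨Z, h1, h2, h3, h4, h5⟩ := h
  obtain ⟨Z', h1', h2', h3', h4', h5'⟩ := h'
  exact ⟨Z ∪ Z', h1.union h1', h2.union' ⟨y, h5, h4'⟩ h2', h3.union h3', Or.inl h4, Or.inr h5'⟩

theorem BiP.sub {Z Y : Set (M × M)} (h : BiP Z) (hY : IsClosed Y) (hs : Y ⊆ Z) : BiP Y := by
  refine ⟨hY, fun K hK => ⟨?_, ?_⟩⟩
  · have := ((h.2 K hK).1).inter_left hY
    rwa [← inter_assoc, inter_eq_left.2 hs] at this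
  · have := ((h.2 K hK).2).inter_left hY
    rwa [← inter_assoc, inter_eq_left.2 hs] at this




theorem Pol.mono {u : M → EReal} {c c' : ℝ} {x : M} (h : Pol A u c x) (hc : c' ≤ c) :
    Pol A u c' x := by
  obtain ⟨i, hi, b, hb⟩ := h
  refine ⟨i, hi, b, ?_⟩
  filter_upwards [hb, Ioo_mem_nhdsGT (zero_lt_one' ℝ)] with r hr hr1 z hz
  refine (hr z hz).trans (EReal.coe_le_coe_iff.2 ?_)
  have := Real.log_nonpos hr1.1.le hr1.2.le
  nlinarith

theorem Pol.of_le {u v : M → EReal} {c : ℝ} {x : M} (h : Pol A v c x)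
    (huv : ∀ᶠ y in 𝓝 x, u y ≤ v y) : Pol A u c x := by
  obtain ⟨i, hi, b, hb⟩ := h
  refine ⟨i, hi, b, ?_⟩
  obtain ⟨ε, hε, hs⟩ := nhds_basis_closedBall.eventually_iff.1 ((HA.ev_chart hi).1 huv)
  filter_upwards [hb, Ioo_mem_nhdsGT hε] with r hr hr1 z hz
  exact (hs (closedBall_subset_closedBall hr1.2.le hz)).trans (hr z hz)

/-- poles pull back along holomorphic maps, and can be read in any chart -/
theorem Pol.pull {u : N → EReal} {c : ℝ} (_hc : 0 ≤ c) {f : M → N} {x : M} (hf : A.Hol B f x)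
    (h : Pol B u c (f x)) {i : A.ι} (hi : x ∈ (A.e i).source) :
    ∃ b : ℝ, ∀ᶠ r in 𝓝[>] (0 : ℝ), ∀ z ∈ closedBall (A.e i x) r,
      u (f ((A.e i).symm z)) ≤ ((c * Real.log r + b : ℝ) : EReal) := by
  obtain ⟨j, hj, b, hb⟩ := h
  have ha := hf.2 i j hi hj
  obtain ⟨L, hL0, hL⟩ := (ha.differentiableAt.hasFDerivAt.isBigO_sub).exists_pos
  have h1 : ∀ᶠ y in 𝓝 x, f y ∈ (B.e j).source := hf.1 ((B.e j).open_source.mem_nhds hj)
  obtain ⟨ε, hε, hs⟩ := nhds_basis_closedBall.eventually_iff.1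
    (hL.bound.and ((HA.ev_chart hi).1 h1))
  have ht : Tendsto (fun r : ℝ => L * r) (𝓝[>] 0) (𝓝[>] 0) := by
    refine tendsto_nhdsWithin_iff.2 ⟨?_, ?_⟩
    · have : Tendsto (fun r : ℝ => L * r) (𝓝 0) (𝓝 (L * 0)) :=
        (continuous_const.mul continuous_id).tendsto 0
      rw [mul_zero] at this
      exact this.mono_left nhdsWithin_le_nhds
    · filter_upwards [self_mem_nhdsWithin] with r hr
      exact mul_pos hL0 hr
  refine ⟨c * Real.log L + b, ?_⟩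
  filter_upwards [ht.eventually hb, Ioo_mem_nhdsGT hε] with r hr hr1 z hz
  obtain ⟨h2, h3⟩ := hs (closedBall_subset_closedBall hr1.2.le hz)
  have h4 : B.e j (f ((A.e i).symm z)) ∈ closedBall (B.e j (f x)) (L * r) := by
    rw [mem_closedBall, dist_eq_norm]
    simp only [(A.e i).left_inv hi] at h2
    refine h2.trans (mul_le_mul_of_nonneg_left ?_ hL0.le)
    rwa [mem_closedBall, dist_eq_norm] at hz
  have h5 := hr _ h4
  rw [(B.e j).left_inv h3, Real.log_mul hL0.ne' hr1.1.ne'] at h5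
  refine h5.trans (le_of_eq ?_)
  congr 1
  ring

theorem Pol.comp {u : N → EReal} {c : ℝ} (hc : 0 ≤ c) {f : M → N} {x : M} (hf : A.Hol B f x)
    (h : Pol B u c (f x)) : Pol A (fun y => u (f y)) c x := by
  obtain ⟨i, hi⟩ := A.cover x
  exact ⟨i, hi, h.pull hc hf hi⟩


end HAlevel

section Atl

variable {n : ℕ} {N : Type} [TopologicalSpace N] {B : Atl n N}

/-- bounded geometry -/
structure BG (H : KP B) : Prop where
  pos : H.Pos
  slow : Slow H
  unif : ∃ (R C δ : ℝ) (a : N → B.ι), 0 < R ∧ 0 < δ ∧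
    (∀ x, x ∈ (B.e (a x)).source ∧ closedBall (B.e (a x) x) R ⊆ (B.e (a x)).target ∧
      ∀ z ∈ closedBall (B.e (a x) x) R, |H.wt (a x) z| ≤ C ∧
        ∀ v : Cn n, δ * ‖v‖ ^ 2 ≤ lvE (H.wt (a x)) z v) ∧
    ∀ K : Set N, IsCompact K → ∃ K' : Set N, IsCompact K' ∧ ∀ x ∉ K',
      ∀ z ∈ closedBall (B.e (a x) x) R, (B.e (a x)).symm z ∉ K

/-- a decreasing sequence of obstacles -/
structure OSeq (H : KP B) (C : ℝ) (K : Set N) (w : ℕ → N → ℝ) : Prop where
  one : 1 ≤ C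
  cpt : IsCompact K
  qp : ∀ s, QP (sc C H) univ (w s)
  le : ∀ s x, w s x ≤ 0
  off : ∀ s, ∀ x ∉ K, w s x = 0
  anti : ∀ x, Antitone fun s => w s x

end Atl




/-- the quotient `N = (M × M) / G` -/
structure PQ {E M : Type} [NormedAddCommGroup E] [NormedSpace ℂ E] [TopologicalSpace M]
    (A : HA E M) {m : ℕ} {N : Type} [TopologicalSpace N] (B : Atl m N) (H : KP B)
    (q : M × M → N) : Prop where
  bg : BG H
  hol : ∀ x, (A.prod A).Hol (HA.of B) q x
  sec : ∀ x, ∃ σ : N → M × M, (HA.of B).Hol (A.prod A) σ (q x) ∧ σ (q x) = x ∧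
    ∀ᶠ y in 𝓝 (q x), q (σ y) = y
  prop : ∀ K : Set N, IsCompact K → BiP (q ⁻¹' K)
  cpt : IsCompact (range fun x => q (x, x))
  reg : ∀ p ∈ range fun x => q (x, x), ∃ d, (HA.of B).Reg (range fun x => q (x, x)) d p
  psh : ∃ h : (A.prod A).ι → E × E → ℝ, (∀ i, ContinuousOn (h i) ((A.prod A).e i).target) ∧
    ∀ U : N → EReal, QPsh (HA.of B) H.wt U → QPsh (A.prod A) h fun x => U (q x)



end

end Crest.Agent.X261.Shaf
end

-- ▼ part X261/Gr/AttS
section

/-!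
# Row 261, package GR, file `AttS` (helper57): `Shaf.AttStmt`
-/

set_option autoImplicit false
set_option linter.unusedSectionVars false

open Set Filter Topology Metric

noncomputable section

namespace Crest.Agent.X261.Gr.Att

open Crest.Agent.X261.Psh Crest.Agent.X261.Ans Crest.Agent.X261.Shaf

variable {E : Type} [NormedAddCommGroup E] [NormedSpace ℂ E] [FiniteDimensional ℂ E]
  {P : Type} [TopologicalSpace P] {A : HA E P} {u : P → EReal} {p : P} {c : ℝ}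





theorem discrete_of_subsingleton [Subsingleton E] (A : HA E P) : DiscreteTopology P := by
  refine discreteTopology_iff_isOpen_singleton.2 fun p => ?_
  obtain ⟨i, hi⟩ := A.cover p
  convert (A.e i).open_source using 1
  exact (eq_singleton_iff_unique_mem.2
    ⟨hi, fun q hq => (A.e i).injOn hq hi (Subsingleton.elim _ _)⟩).symm



end Crest.Agent.X261.Gr.Att
end
end

-- ▼ part X261/Cov/Q
section

/-!
# X261, package COV (helper3), part Q: analytic sets on `M × M` and on `N = (M × M) / G`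

* `sj D D' p r` : the local inverse of `jn D D' f` on a product of sheets, `bih_jn`, `bih_q`;
* `an_q_iff`, `an_image_q`, `cov_q`, `reg_q` : transfer of analytic sets;
* `iso_sw`, `holMap_sw` : the involution is an isometry;
* `ubN` : uniform balls on `N`.
-/

set_option autoImplicit false
set_option linter.unusedSectionVars false

open Set Filter Topology
open scoped Pointwise

namespace Crest.Agent.X261.Cov.Q

open Crest.Agent.R275.Geo Crest.Agent.R275.Prod363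
open Crest.Agent.R273.UCov_914 Crest.Agent.R273.Map_835
open Crest.Agent.R281.Kp_487 (KP)
open Crest.Agent.X261.BT (Iso ovI)
open Crest.Agent.X261.Ans (HA)
open Crest.Agent.X261.Ans.Brg
open Crest.Agent.X261.Cov.K Crest.Agent.X261.Cov.P Crest.Agent.X261.Cov.U

noncomputable section

variable {n m : ℕ} {X Y : Type} [TopologicalSpace X] [TopologicalSpace Y]
variable {A : Atl n X} {B : Atl m Y}
variable {G G' : Type} [Group G] [Group G'] (D : MonD A G) (D' : MonD B G')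

section jn

variable {F F' E : Type} [MulAction G F] [MulAction G' F'] [MulAction (G × G') E]

/-- the local inverse of `jn` -/
def sj (p : A.ι × F) (r : B.ι × F') (y : (prodD D D').cov E) : D.cov F × D'.cov F' :=
  (D.pt p.1 p.2 ((prodD D D').pr y).1, D'.pt r.1 r.2 ((prodD D D').pr y).2)

variable {D D'} {f : F → F' → E}

theorem hol_sj {p : A.ι × F} {r : B.ι × F'} {y : (prodD D D').cov E}
    (hy : (prodD D D').pr y ∈ ((A.prod B).e (p.1, r.1)).source) :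
    (HA.of ((prodD D D').atl E)).Hol ((HA.of (D.atl F)).prod (HA.of (D'.atl F')))
      (sj D D' p r) y := by
  have h0 := (hol_ofProd ((prodD D D').pr y)).comp (hol_pr (prodD D D') y)
  exact ((hol_pt D p.2 hy.1).comp_of_eq h0.fst rfl).prodMk
    ((hol_pt D' r.2 hy.2).comp_of_eq h0.snd rfl)

theorem bih_jn (hf : Bq G G' f) (p : A.ι × F) (r : B.ι × F') :
    HA.Bih ((HA.of (D.atl F)).prod (HA.of (D'.atl F'))) (HA.of ((prodD D D').atl E))
      (D.sheet p.1 p.2 ×ˢ D'.sheet r.1 r.2) ((prodD D D').sheet (p.1, r.1) (f p.2 r.2))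
      (jn D D' f) (sj D D' p r) where
  opU := (D.isOpen_sheet _ _).prod (D'.isOpen_sheet _ _)
  opV := (prodD D D').isOpen_sheet _ _
  hg x _ := hol_jn hf x
  hf _ hy := hol_sj hy.1
  mg _ hx := jn_mem hf hx.1 hx.2
  mf _ hy := ⟨D.pt_mem_sheet _ hy.1.1, D'.pt_mem_sheet _ hy.1.2⟩
  fg _ hx := Prod.ext (D.pt_of_mem hx.1) (D'.pt_of_mem hx.2)
  gf y hy := by
    rw [sj, jn_pt hf _ _ hy.1.1 hy.1.2]
    exact (prodD D D').pt_of_mem hy

theorem exists_bih (hf : Bq G G' f) (x : D.cov F × D'.cov F') :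
    ∃ U V σ, x ∈ U ∧ HA.Bih ((HA.of (D.atl F)).prod (HA.of (D'.atl F')))
      (HA.of ((prodD D D').atl E)) U V (jn D D' f) σ := by
  obtain ⟨i, hi⟩ := A.cover (D.pr x.1)
  obtain ⟨j, hj⟩ := B.cover (D'.pr x.2)
  exact ⟨_, _, _, mk_mem_prod (D.mem_sheet_co hi) (D'.mem_sheet_co hj),
    bih_jn hf (i, D.co i x.1) (j, D'.co j x.2)⟩


theorem anAt_jn_iff (hf : Bq G G' f) {Z : Set ((prodD D D').cov E)} {x : D.cov F × D'.cov F'} :
    ((HA.of (D.atl F)).prod (HA.of (D'.atl F'))).AnAt (jn D D' f ⁻¹' Z) x ↔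
      (HA.of ((prodD D D').atl E)).AnAt Z (jn D D' f x) := by
  refine ⟨fun h => ?_, fun h => h.preimage (hol_jn hf x)⟩
  obtain ⟨U, V, σ, h1, h2⟩ := exists_bih hf x
  rw [← h2.fg x h1] at h
  refine (h.preimage (h2.hf _ (h2.mg h1))).congr ?_
  filter_upwards [h2.opV.mem_nhds (h2.mg h1)] with y hy
  rw [mem_preimage, mem_preimage, h2.gf y hy]


end jn

/-! ### the quotient `N` -/

/-- the atlas of `M × M` in the language of the package ANS -/
abbrev aM : HA (Cn n × Cn n) (D.cov G × D.cov G) := (HA.of (D.atl G)).prod (HA.of (D.atl G))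



theorem anAt_q_iff {Z : Set (Nq D)} {x : D.cov G × D.cov G} :
    (aM D).AnAt (q D ⁻¹' Z) x ↔ (HA.of (aN D)).AnAt Z (q D x) := anAt_jn_iff bq_div


theorem an_q_iff {Z : Set (Nq D)} : (aM D).An univ (q D ⁻¹' Z) ↔ (HA.of (aN D)).An univ Z := by
  refine ⟨fun h y _ => ?_, fun h x _ => (anAt_q_iff D).2 (h _ (mem_univ _))⟩
  obtain ⟨x, rfl⟩ := surjective_q D y
  exact (anAt_q_iff D).1 (h x (mem_univ _))


theorem an_Dg [T2Space X] : (HA.of (aN D)).An univ (Dg D) := by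
  refine (an_q_iff D).1 fun x _ => (HA.anAt_diag _ x).congr (Eventually.of_forall fun y => ?_)
  exact (q_mem_Dg D).symm



/-! ### the involution -/





/-! ### uniform balls -/

theorem exists_ubN [CompactSpace X] [T2Space X] [Finite A.ι] {H : KP A} (hH : H.Pos) :
    Nonempty (UB (kN D H)) := exists_ub _ _ (pos_prod hH hH)




end

end Crest.Agent.X261.Cov.Q
end

-- ▼ part X261/Sh72/Lf
section

/-!
# X261/Sh72/Lf (helper72): the field `mer` of `Top.Tube` from the field `forms` of `EqvK`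
-/

set_option autoImplicit false
set_option linter.unusedSectionVars false

open Set Filter Topology Module

namespace Crest.Agent.X261.Sh72

open Crest.Agent.R275.Geo Crest.Agent.R275.Core144
open Crest.Agent.R273.Fock_243 (FI)
open Crest.Agent.X261.Top (wdg dW)
open Crest.Agent.X261.Ans Crest.Agent.X261.Ans.Brg
open Crest.Agent.X261.Frb.Main (row dW_eq wdg_row_ne)

/-- a function vanishing on the fibre of a submersion has differential killing the kernel -/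
theorem fderiv_ker {E F : Type} [NormedAddCommGroup E] [NormedSpace ℂ E] [FiniteDimensional ℂ E]
    [NormedAddCommGroup F] [NormedSpace ℂ F] [FiniteDimensional ℂ F] {π : E → F} {h : E → ℂ} {a : E}
    (hπ : AnalyticAt ℂ π a) (hs : Function.Surjective (fderiv ℂ π a)) {h' : E →L[ℂ] ℂ}
    (hh : HasFDerivAt h h' a) (h0 : ∀ᶠ z in 𝓝 a, π z = π a → h z = 0) {v : E}
    (hv : fderiv ℂ π a v = 0) : h' v = 0 := by
  have := FiniteDimensional.complete ℂ E
  have h1 := hπ.hasStrictFDerivAt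
  have h2 : (fderiv ℂ π a).range = ⊤ := LinearMap.range_eq_top.2 hs
  have h3 := (h1.to_implicitFunction h2).hasFDerivAt
  have h4 : h1.implicitFunction π _ h2 (π a) 0 = a := h1.implicitFunction_apply_image h2
  have h5 : ∀ᶠ w in 𝓝 (0 : (fderiv ℂ π a).ker), π (h1.implicitFunction π _ h2 (π a) w) = π a :=
    (Continuous.prodMk_right (π a)).continuousAt.eventually (h1.map_implicitFunction_eq h2)
  have h6 : Tendsto (h1.implicitFunction π _ h2 (π a)) (𝓝 0) (𝓝 a) := by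
    have h7 := h3.continuousAt
    rwa [ContinuousAt, h4] at h7
  rw [← h4] at hh
  have h8 := (hh.comp _ h3).unique ((hasFDerivAt_const (0 : ℂ) _).congr_of_eventuallyEq
    ((h5.and (h6.eventually h0)).mono fun w hw => hw.2 hw.1))
  exact congrArg (fun L : _ →L[ℂ] ℂ => L ⟨v, hv⟩) h8

variable {n p : ℕ}

theorem wdg_mul (a : Matrix (Fin p) (Fin p) ℂ) (v : Fin p → Fin n → ℂ) :
    wdg (fun k b => ∑ j, a k j * v j b) = a.det • wdg v := by
  funext S
  simp only [wdg, Pi.smul_apply, smul_eq_mul]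
  split_ifs with h
  · rw [← Matrix.det_mul]
    rfl
  · rw [mul_zero]

/-- linear forms killing the kernel of `L` have wedge product proportional to that of `L` -/
theorem wdg_of_ker (L : Cn n →L[ℂ] Cn p) (l : Fin p → Cn n →L[ℂ] ℂ)
    (h : ∀ k v, L v = 0 → l k v = 0) :
    ∃ c : ℂ, wdg (fun k b => l k (EuclideanSpace.single b 1)) = c • wdg (row L) := by
  have h1 : ∀ k, ∃ a : Fin p → ℂ, ∀ v, l k v = ∑ j, a j * L v j := fun k => by
    have h2 := mem_span_of_iInf_ker_le_ker (K := (l k).toLinearMap)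
      (L := fun j : Fin p => ((EuclideanSpace.proj j : Cn p →L[ℂ] ℂ).comp L).toLinearMap)
      fun v hv => h k v (by
        ext j
        exact LinearMap.mem_ker.1 ((Submodule.mem_iInf _).1 hv j))
    obtain ⟨a, ha⟩ := (Submodule.mem_span_range_iff_exists_fun ℂ).1 h2
    refine ⟨a, fun v => ?_⟩
    simpa [LinearMap.sum_apply] using (LinearMap.congr_fun ha v).symm
  choose a ha using h1
  refine ⟨(Matrix.of a).det, ?_⟩
  rw [← wdg_mul]
  congr 1
  funext k b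
  exact ha k _

variable {M : Type} [TopologicalSpace M] {B : Atl n M}

theorem mer_of {r : ℕ} (hn : p + r = n) {Y : Set (M × M)}
    (hf : ∀ (i : B.ι), ∀ x ∈ (B.e i).source, ∃ (W : Set (Cn n)) (f : Fin p → Cn n × Cn n → ℂ),
      IsOpen W ∧ IsPreconnected W ∧ B.e i x ∈ W ∧ W ⊆ (B.e i).target ∧
      (∀ j, AnalyticOnNhd ℂ (f j) (W ×ˢ W)) ∧
      (∀ j, ∀ y ∈ W, ∀ z ∈ W, ((B.e i).symm y, (B.e i).symm z) ∈ Y → f j (y, z) = 0) ∧
      ∃ z ∈ W, Function.Surjective (fderiv ℂ (fun y => fun j => f j (z, y)) z))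
    {M0 : Set M} {T : M → Set M} {π : M → M → Cn p}
    (hs : ∀ x ∈ M0, ∀ y ∈ T x, (HA.of B).Subm (HA.self (Cn p)) (π x) y)
    (hY : ∀ x ∈ M0, ∀ y ∈ T x, ∀ᶠ z in 𝓝 y, π x z = π x y → (y, z) ∈ Y) (x : M) :
    ∃ (i : B.ι) (U : Set M) (τ : M → FI n → ℂ), IsOpen U ∧ x ∈ U ∧
      U ⊆ (B.e i).source ∧ (∀ S, HolAt B i U fun y => τ y S) ∧
      (∀ y S, S.card ≠ p → τ y S = 0) ∧
      (∀ V : Set M, IsOpen V → V.Nonempty → V ⊆ U → ∃ y ∈ V, τ y ≠ 0) ∧
      ∀ x' ∈ M0, ∀ y ∈ U ∩ T x', ∃ c : ℂ, τ y = c • dW B i (π x') y := by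
  obtain ⟨i, hi⟩ := B.cover x
  obtain ⟨W, f, hW, hc, hxW, hWt, hfa, hf0, z₀, hz₀, hsu⟩ := hf i x hi
  let t : Cn n → FI n → ℂ := fun z =>
    wdg fun k b => fderiv ℂ (f k) (z, z) (0, EuclideanSpace.single b 1)
  have hd : ∀ k, ∀ z ∈ W, HasFDerivAt (fun y => f k (z, y))
      ((fderiv ℂ (f k) (z, z)).comp (ContinuousLinearMap.inr ℂ _ _)) z := fun k z hz =>
    (hfa k (z, z) ⟨hz, hz⟩).differentiableAt.hasFDerivAt.comp z (hasFDerivAt_prodMk_right z z)
  have ht : ∀ S, AnalyticOnNhd ℂ (fun z => t z S) W := fun S z hz => by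
    by_cases h : S.card = p
    · simp only [t, wdg, dif_pos h]
      refine Man.analyticAt_det fun k l => ?_
      have h1 : AnalyticAt ℂ (fun y : Cn n => fderiv ℂ (f k) (y, y)) z :=
        AnalyticAt.comp (f := fun y : Cn n => (y, y)) (hfa k (z, z) ⟨hz, hz⟩).fderiv
          (analyticAt_id.prod analyticAt_id)
      exact ((ContinuousLinearMap.apply ℂ ℂ _).analyticAt _).comp h1
    · simp only [t, wdg, dif_neg h]
      exact analyticAt_const
  have ht0 : t z₀ ≠ 0 := by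
    have h1 := (hasFDerivAt_pi.2 fun k => hd k z₀ hz₀).fderiv
    rw [h1] at hsu
    exact wdg_row_ne hn (L := ((EuclideanSpace.equiv (Fin p) ℂ).symm : _ →L[ℂ] Cn p).comp
      (ContinuousLinearMap.pi fun k => (fderiv ℂ (f k) (z₀, z₀)).comp
        (ContinuousLinearMap.inr ℂ (Cn n) (Cn n))))
      ((EuclideanSpace.equiv (Fin p) ℂ).symm.surjective.comp hsu)
  refine ⟨i, (B.e i).source ∩ B.e i ⁻¹' W, fun y => t (B.e i y),
    (B.e i).isOpen_inter_preimage hW, ⟨hi, hxW⟩, inter_subset_left, fun S => ?_,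
    fun y S h => dif_neg h, fun V hV ⟨y, hy⟩ hVU => ?_, fun x' hx' y hy => ?_⟩
  · refine (((ht S).differentiableOn.mono fun z hz => ?_).congr fun z hz => ?_)
    · have h1 := hz.2.2
      rwa [mem_preimage, (B.e i).right_inv hz.1] at h1
    · beta_reduce
      rw [(B.e i).right_inv hz.1]
  · by_contra h
    push Not at h
    obtain ⟨S, hS⟩ := Function.ne_iff.1 ht0
    refine hS ((ht S).eqOn_zero_of_preconnected_of_eventuallyEq_zero hc (hVU hy).2 ?_ hz₀)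
    refine (HA.ev_chart' (A := HA.of B) (i := i) (hVU hy).1).2 ?_
    filter_upwards [hV.mem_nhds hy] with w hw using congrFun (h w hw) S
  · have h1 := hs x' hx' y hy.2
    have hyi : y ∈ (B.e i).source := hy.1.1
    have h2 := (HA.hol_self_iff (A := HA.of B) (i := i) hyi).1 h1.hol
    have h3 := (HA.subm_self_iff h1.hol (i := i) hyi).1 h1
    rw [dW_eq h2.differentiableAt]
    refine wdg_of_ker _ (fun k => (fderiv ℂ (f k) (B.e i y, B.e i y)).comp
      (ContinuousLinearMap.inr ℂ _ _)) fun k v hv => fderiv_ker h2 h3 (hd k _ hy.1.2) ?_ hv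
    filter_upwards [(HA.ev_chart (A := HA.of B) (i := i) hyi).1 (hY x' hx' y hy.2),
      hW.mem_nhds hy.1.2] with z h4 h5 h6
    refine hf0 k _ hy.1.2 z h5 ?_
    rw [of_e, (B.e i).left_inv hyi] at h6
    rw [(B.e i).left_inv hyi]
    exact h4 h6

end Crest.Agent.X261.Sh72
end

-- ▼ part X261/Sh97/Defs
section

/-!
# X261/Sh97/Defs (helper97): the reduction by compact analytic sets, definitions

* `Er A x y` : `x`, `y` lie in one compact connected analytic set;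
* `BiP Z`    : `Z ⊆ M × M` is proper over both factors;
* `Key A`    : the analytic input (countably many bi-proper analytic relations cover `Er`);
* `GrAt`     : the relation `Y` is a graph along the whole class of `x`;
* `Out k`    : the output of the files `Fd`, `Gr`.
-/

set_option autoImplicit false
set_option linter.unusedSectionVars false

open Set Filter Topology Module

namespace Crest.Agent.X261.Sh97

open Crest.Agent.X261.Ans

variable {E : Type} [NormedAddCommGroup E] [NormedSpace ℂ E] {M : Type} [TopologicalSpace M]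

/-- `x` and `y` lie in one compact connected analytic set -/
def Er (A : HA E M) (x y : M) : Prop :=
  ∃ Z : Set M, IsCompact Z ∧ IsPreconnected Z ∧ A.An univ Z ∧ x ∈ Z ∧ y ∈ Z

/-- proper over both factors -/
def BiP (Z : Set (M × M)) : Prop :=
  ∀ K : Set M, IsCompact K → IsCompact (Z ∩ Prod.fst ⁻¹' K) ∧ IsCompact (Z ∩ Prod.snd ⁻¹' K)

/-- the analytic input -/
structure Key (A : HA E M) where
  Z : ℕ → Set (M × M)
  an : ∀ c, (A.prod A).An univ (Z c)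
  bip : ∀ c, BiP (Z c)
  er : ∀ x y, Er A x y → ∃ c, (x, y) ∈ Z c

/-- `π` is a foliation chart of `Y` on `U ∋ x`, and `Y` is a graph near every point `(x, b)` -/
structure GrAt (A : HA E M) (Y : Set (M × M)) (p : ℕ) (x : M) (U : Set M)
    (π : M → Fin p → ℂ) : Prop where
  opn : IsOpen U
  mem : x ∈ U
  subm : ∀ y ∈ U, A.Subm (HA.self (Fin p → ℂ)) π y
  iff : ∀ y ∈ U, ∀ z ∈ U, (y, z) ∈ Y ↔ π y = π z
  sat : ∀ y ∈ U, ∀ z ∈ U, (y, z) ∈ Y → ∀ q, (z, q) ∈ Y → (y, q) ∈ Y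
  gr : ∀ b, (x, b) ∈ Y → ∃ τ : M → Fin p → ℂ, A.Hol (HA.self (Fin p → ℂ)) τ b ∧
    ∀ᶠ q in 𝓝 (x, b), (q ∈ Y ↔ π q.1 = τ q.2)

/-- the maximal bi-proper irreducible relation -/
structure Out {A : HA E M} (k : Key A) where
  p : ℕ
  r : ℕ
  hpr : p + r = finrank ℂ E
  Y : Set (M × M)
  irr : (A.prod A).Irr univ Y (finrank ℂ E + r)
  diag : ∀ x, (x, x) ∈ Y
  symm : ∀ x y, (x, y) ∈ Y → (y, x) ∈ Y
  bip : BiP Y
  max : ∀ (Y' : Set (M × M)) (d : ℕ), (A.prod A).Irr univ Y' d → (∀ x, (x, x) ∈ Y') → BiP Y' →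
    Y' ⊆ Y
  inv : ∀ g f : M → M, HA.Bih A A univ univ g f → ∀ x y, (x, y) ∈ Y → (g x, g y) ∈ Y
  pos : ¬ CompactSpace M → 1 ≤ p
  forms : ∀ (i : A.ι), ∀ x ∈ (A.e i).source, ∃ (W : Set E) (f : Fin p → E × E → ℂ), IsOpen W ∧
    IsPreconnected W ∧ A.e i x ∈ W ∧ W ⊆ (A.e i).target ∧
    (∀ j, AnalyticOnNhd ℂ (f j) (W ×ˢ W)) ∧
    (∀ j, ∀ y ∈ W, ∀ z ∈ W, ((A.e i).symm y, (A.e i).symm z) ∈ Y → f j (y, z) = 0) ∧
    ∃ z ∈ W, Function.Surjective (fderiv ℂ (fun y => fun j => f j (z, y)) z)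
  /-- the points that are not general -/
  B : Set M
  cov : A.Cov (finrank ℂ E) B
  gr : ∀ x, x ∉ B → ∃ (U : Set M) (π : M → Fin p → ℂ), GrAt A Y p x U π
  loc : ∀ x, x ∉ B → ∀ c, ∀ᶠ q in 𝓝 (x, x), q ∈ k.Z c → q ∈ Y

/-- the statement proved in `Sh97/Main` -/
def OutStmt : Prop :=
  ∀ (E : Type) [NormedAddCommGroup E] [NormedSpace ℂ E] [FiniteDimensional ℂ E] (M : Type)
    [TopologicalSpace M] [T2Space M] [ConnectedSpace M] (A : HA E M) [Countable A.ι] (k : Key A),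
    Nonempty (Out k)

end Crest.Agent.X261.Sh97
end

-- ▼ part X261/Sh81/Defs
section

/-!
# X261/Sh81/Defs (helper81): tube data

`Dat A Y T π O` : `π : T → O` is a proper holomorphic submersion with connected fibres whose fibre
relation is contained in `Y`.
-/

set_option autoImplicit false
set_option linter.unusedSectionVars false

open Set Filter Topology Module

namespace Crest.Agent.X261.Sh81

open Crest.Agent.X261.Ans

variable {E : Type} [NormedAddCommGroup E] [NormedSpace ℂ E] {M : Type} [TopologicalSpace M]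

/-- a tube datum -/
structure Dat (A : HA E M) (Y : Set (M × M)) {p : ℕ} (T : Set M) (π : M → Fin p → ℂ)
    (O : Set (Fin p → ℂ)) : Prop where
  opn : IsOpen T
  opO : IsOpen O
  img : π '' T = O
  subm : ∀ y ∈ T, A.Subm (HA.self (Fin p → ℂ)) π y
  prop : ∀ K ⊆ O, IsCompact K → IsCompact (T ∩ π ⁻¹' K)
  conn : ∀ t, IsPreconnected (T ∩ π ⁻¹' {t})
  sub : ∀ y ∈ T, ∀ z ∈ T, π y = π z → (y, z) ∈ Y

end Crest.Agent.X261.Sh81
end

-- ▼ part X261/Sh72/Conv
section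

/-!
# X261/Sh72/Conv (helper72): from tube data `Sh81.Dat` to `Top.Tube` and `Sk.GredK`
-/

set_option autoImplicit false
set_option linter.unusedSectionVars false

open Set Filter Topology Module Metric
open scoped Pointwise

namespace Crest.Agent.X261.Sh72

open Crest.Agent.R275.Geo Crest.Agent.R275.GC293
open Crest.Agent.R273.UCov_914
open Crest.Agent.R281.Kp_487 (KP)
open Crest.Agent.X261.Top (Tube)
open Crest.Agent.X261.Ans Crest.Agent.X261.Ans.Brg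
open Crest.Agent.X261.Sh97 (Key Out OutStmt)
open Crest.Agent.X261.Sh81 (Dat)

/-- tube data exist off a thin set -/
def TubS : Prop :=
  ∀ (E : Type) [NormedAddCommGroup E] [NormedSpace ℂ E] [FiniteDimensional ℂ E] (M : Type)
    [TopologicalSpace M] [T2Space M] [ConnectedSpace M] (A : HA E M) [Countable A.ι] (k : Key A)
    (Q : Out k), A.Cov (finrank ℂ E) {x | ¬ ∃ T π O, Dat A Q.Y (p := Q.p) T π O ∧ x ∈ T}

/-- the fibre through a point does not depend on the datum -/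
def UniqS : Prop :=
  ∀ (E : Type) [NormedAddCommGroup E] [NormedSpace ℂ E] [FiniteDimensional ℂ E] (M : Type)
    [TopologicalSpace M] [T2Space M] [ConnectedSpace M] (A : HA E M) [Countable A.ι] (k : Key A)
    (Q : Out k) (T T' : Set M) (π π' : M → Fin Q.p → ℂ) (O O' : Set (Fin Q.p → ℂ)),
    Dat A Q.Y T π O → Dat A Q.Y T' π' O' → ∀ y ∈ T, y ∈ T' →
      T ∩ π ⁻¹' {π y} = T' ∩ π' ⁻¹' {π' y}

/-- maximality at general points -/
def MaxS : Prop :=
  ∀ (E : Type) [NormedAddCommGroup E] [NormedSpace ℂ E] [FiniteDimensional ℂ E] (M : Type)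
    [TopologicalSpace M] [T2Space M] [ConnectedSpace M] (A : HA E M) [Countable A.ι] (k : Key A)
    (Q : Out k) (T : Set M) (π : M → Fin Q.p → ℂ) (O : Set (Fin Q.p → ℂ)),
    Dat A Q.Y T π O → ∀ x ∈ T, x ∉ Q.B → ∀ Z : Set M, IsCompact Z → IsPreconnected Z →
      A.An univ Z → x ∈ Z → Z ⊆ T ∩ π ⁻¹' {π x}

/-- the analytic input on the cover -/
def KeyS : Prop :=
  ∀ (n : ℕ) (X : Type) [TopologicalSpace X] [T2Space X] [CompactSpace X] [ConnectedSpace X]
    (A : Atl n X) [Finite A.ι], GoodA A → Part A → ∀ H : KP A, H.Pos →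
    ∀ (G : Type) [Group G] [Infinite G] (D : MonD A G), ConnectedSpace (D.cov G) →
      Nonempty (Key (HA.of (D.atl G)))

section General

variable {E : Type} [NormedAddCommGroup E] [NormedSpace ℂ E] [FiniteDimensional ℂ E] {M : Type}
  [TopologicalSpace M] {A : HA E M} {Y : Set (M × M)} {p : ℕ} {T : Set M} {π : M → Fin p → ℂ}
  {O : Set (Fin p → ℂ)}

/-- transport of a datum along a biholomorphism preserving `Y` -/
theorem dat_transport (h : Dat A Y T π O) {g f : M → M} (hb : HA.Bih A A univ univ g f)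
    (hY : ∀ x y, (x, y) ∈ Y → (g x, g y) ∈ Y) : Dat A Y (f ⁻¹' T) (fun y => π (f y)) O := by
  have hg : Continuous g := continuousOn_univ.1 hb.contOn
  have hf : Continuous f := continuousOn_univ.1 hb.symm.contOn
  have him : ∀ S, g '' S = f ⁻¹' S := fun S => by simpa using hb.image_eq S
  have hgf : ∀ y, g (f y) = y := fun y => hb.gf y (mem_univ y)
  refine ⟨h.opn.preimage hf, h.opO, ?_, fun y hy => (h.subm _ hy).comp (hb.symm.subm (mem_univ y)),
    fun K h1 h2 => ?_, fun t => ?_, fun y hy z hz h1 => ?_⟩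
  · rw [← h.img, ← him, image_image]
    exact image_congr fun x _ => by rw [hb.fg x (mem_univ x)]
  · have h3 := (h.prop K h1 h2).image hg
    rwa [him] at h3
  · have h3 := (h.conn t).image g hg.continuousOn
    rwa [him] at h3
  · have h2 := hY _ _ (h.sub _ hy _ hz h1)
    rwa [hgf, hgf] at h2

/-- normalisation of a datum at a point -/
theorem dat_norm (h : Dat A Y T π O) {x : M} (hx : x ∈ T) : ∃ (T' : Set M) (π' : M → Cn p),
    IsOpen T' ∧ x ∈ T' ∧ T' ⊆ T ∧ (∀ y ∈ T', A.Subm (HA.self (Cn p)) π' y) ∧ π' x = 0 ∧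
      π' '' T' = ball 0 1 ∧ (∀ r < (1 : ℝ), IsCompact {y | y ∈ T' ∧ ‖π' y‖ ≤ r}) ∧
      ∀ y ∈ T', T ∩ π ⁻¹' {π y} = {z | z ∈ T' ∧ π' z = π' y} := by
  let L : Cn p ≃L[ℂ] (Fin p → ℂ) := EuclideanSpace.equiv (Fin p) ℂ
  have h1 : (fun t => π x + L t) ⁻¹' O ∈ 𝓝 (0 : Cn p) :=
    (h.opO.preimage (by fun_prop)).mem_nhds (by simpa using h.img ▸ mem_image_of_mem π hx)
  obtain ⟨ε, hε, hb⟩ := Metric.mem_nhds_iff.1 h1
  have hε' : (ε : ℂ) ≠ 0 := by exact_mod_cast hε.ne'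
  let a : Cn p → Fin p → ℂ := fun t => π x + L ((ε : ℂ) • t)
  let b : (Fin p → ℂ) → Cn p := fun s => (ε : ℂ)⁻¹ • L.symm (s - π x)
  have hab : ∀ s, a (b s) = s := fun s => by
    simp only [a, b, smul_inv_smul₀ hε', L.apply_symm_apply, add_sub_cancel]
  have hba : ∀ t, b (a t) = t := fun t => by
    simp only [a, b, add_sub_cancel_left, L.symm_apply_apply, inv_smul_smul₀ hε']
  have ha : ∀ t, AnalyticAt ℂ a t := fun t =>
    analyticAt_const.add (AnalyticAt.comp (g := L) (f := fun t => (ε : ℂ) • t)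
      ((L : Cn p →L[ℂ] (Fin p → ℂ)).analyticAt _) (analyticAt_id.const_smul (c := (ε : ℂ))))
  have hbb : ∀ s, AnalyticAt ℂ b s := fun s =>
    (AnalyticAt.comp (g := L.symm) (f := fun s => s - π x)
      ((L.symm : (Fin p → ℂ) →L[ℂ] Cn p).analyticAt _)
      (analyticAt_id.sub analyticAt_const)).const_smul (c := (ε : ℂ)⁻¹)
  have haO : ∀ t ∈ ball (0 : Cn p) 1, a t ∈ O := fun t ht => hb (by
    rw [mem_ball_zero_iff] at ht ⊢
    rw [norm_smul, Complex.norm_real, Real.norm_of_nonneg hε.le]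
    exact mul_lt_of_lt_one_right hε ht)
  have hs : ∀ y ∈ T, A.Subm (HA.self (Cn p)) (fun y => b (π y)) y := fun y hy =>
    (HA.subm_of_sec (HA.self_hol_iff.2 (hbb _)) (HA.self_hol_iff.2 (ha _)) (hab _)
      (Eventually.of_forall hba)).comp (h.subm y hy)
  refine ⟨T ∩ (fun y => b (π y)) ⁻¹' ball 0 1, fun y => b (π y),
    ContinuousOn.isOpen_inter_preimage (fun y hy => (hs y hy).hol.cont.continuousWithinAt) h.opn
      isOpen_ball, ⟨hx, by simp [b]⟩, inter_subset_left, fun y hy => hs y hy.1, by simp [b],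
    subset_antisymm ?_ fun t ht => ?_, fun r hr => ?_, fun y hy => ?_⟩
  · rintro _ ⟨y, hy, rfl⟩
    exact hy.2
  · obtain ⟨y, hy, h2⟩ : a t ∈ π '' T := h.img ▸ haO t ht
    have h3 : b (π y) = t := by rw [h2, hba]
    exact ⟨y, ⟨hy, by rwa [mem_preimage, h3]⟩, h3⟩
  · have h2 := h.prop (a '' closedBall 0 r) (by
      rintro _ ⟨t, ht, rfl⟩
      exact haO t (closedBall_subset_ball hr ht))
      ((isCompact_closedBall 0 r).image (continuous_iff_continuousAt.2 fun t => (ha t).continuousAt))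
    convert h2 using 1
    ext y
    refine ⟨fun h3 => ⟨h3.1.1, _, mem_closedBall_zero_iff.2 h3.2, hab _⟩, ?_⟩
    rintro ⟨h3, t, ht, h4⟩
    have h5 : b (π y) = t := by rw [← h4, hba]
    exact ⟨⟨h3, by rw [mem_preimage, h5]; exact closedBall_subset_ball hr ht⟩,
      (congrArg norm h5).le.trans (mem_closedBall_zero_iff.1 ht)⟩
  · ext z
    refine ⟨fun h2 => ?_, fun h2 => ⟨h2.1.1, ?_⟩⟩
    · have h3 : b (π z) = b (π y) := congrArg b h2.2
      exact ⟨⟨h2.1, by rw [mem_preimage, h3]; exact hy.2⟩, h3⟩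
    · have h3 := congrArg a h2.2
      rwa [hab, hab] at h3


end General

section Tube

variable {n : ℕ} {M : Type} [TopologicalSpace M] [T2Space M] [ConnectedSpace M] {B : Atl n M}
  [Countable B.ι] {G : Type} [Group G] [Countable G] [MulAction G M]

theorem tube_of (hT : TubS) (hU : UniqS) (hM : MaxS)
    (hG : ∀ (g : G) (x : M), (HA.of B).Hol (HA.of B) (fun y => g • y) x) {k : Key (HA.of B)}
    (Q : Out k) : Nonempty (Tube B G Q.p) := by
  let M0 : Set M := {x | ∃ T π O, Dat (HA.of B) Q.Y (p := Q.p) T π O ∧ x ∈ T}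
  have hb : ∀ g : G, HA.Bih (HA.of B) (HA.of B) univ univ (fun y => g • y) (fun y => g⁻¹ • y) :=
    fun g => HA.bih_univ (hG g) (hG g⁻¹) (fun x => inv_smul_smul g x) fun x => smul_inv_smul g x
  have hsm : ∀ (g : G) (Z : Set M), g • Z = (fun y => g⁻¹ • y) ⁻¹' Z := fun g Z =>
    Set.ext fun _ => mem_smul_set_iff_inv_smul_mem
  have h0 : ∀ x ∈ M0, ∃ T π O, Dat (HA.of B) Q.Y (p := Q.p) T π O ∧ x ∈ T := fun _ hx => hx
  choose! T₀ π₀ O₀ hD hx₀ using h0
  choose! T π h1 h2 h3 h4 h5 h6 h7 h8 using fun x (hx : x ∈ M0) => dat_norm (hD x hx) (hx₀ x hx)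
  have hsub : ∀ x ∈ M0, T₀ x ⊆ M0 := fun x hx y hy => ⟨_, _, _, hD x hx, hy⟩
  have hW : ∀ y ∈ M0, ∀ T' π' O', Dat (HA.of B) Q.Y (p := Q.p) T' π' O' → y ∈ T' →
      T₀ y ∩ π₀ y ⁻¹' {π₀ y y} = T' ∩ π' ⁻¹' {π' y} := fun y hy T' π' O' h hyT =>
    hU _ M _ k Q _ _ _ _ _ _ (hD y hy) h y (hx₀ y hy) hyT
  have htr := fun (g : G) x (hx : x ∈ M0) => dat_transport (hD x hx) (hb g) (Q.inv _ _ (hb g))
  have hgx : ∀ (g : G), ∀ x ∈ M0, g • x ∈ (fun y => g⁻¹ • y) ⁻¹' T₀ x := fun g x hx => by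
    simpa using hx₀ x hx
  have hn : Q.p + Q.r = n := Q.hpr.trans (finrank_Cn n)
  exact ⟨{
    M0 := M0
    opn := isOpen_iff_mem_nhds.2 fun x hx =>
      mem_of_superset ((hD x hx).opn.mem_nhds (hx₀ x hx)) (hsub x hx)
    thin := cov_iff_sthM'.1 (hT _ M _ k Q)
    inv := fun g x hx => ⟨_, _, _, htr g x hx, hgx g x hx⟩
    W := fun y => T₀ y ∩ π₀ y ⁻¹' {π₀ y y}
    W_mem := fun x hx => ⟨hx₀ x hx, rfl⟩
    W_eq := fun x hx y hy => by
      rw [hW y (hsub x hx hy.1) _ _ _ (hD x hx) hy.1, show π₀ x y = π₀ x x from hy.2]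
    W_inv := fun g x hx => by
      rw [hW _ ⟨_, _, _, htr g x hx, hgx g x hx⟩ _ _ _ (htr g x hx) (hgx g x hx), hsm,
        inv_smul_smul]
      rfl
    W_conn := fun x hx => (hD x hx).conn _
    T := T
    π := π
    T_opn := h1
    T_mem := h2
    T_sub := fun x hx => (h3 x hx).trans (hsub x hx)
    π_hol := fun x hx => holV_of fun y hy => (h4 x hx y hy).hol
    π_cont := fun x hx y hy => (h4 x hx y hy).hol.cont.continuousWithinAt
    π_subm := fun x hx => crit_eq_empty (h4 x hx)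
    π_self := h5
    π_img := h6
    π_prop := h7
    π_fib := fun x hx y hy => by
      rw [hW y (hsub x hx (h3 x hx hy)) _ _ _ (hD x hx) (h3 x hx hy), h8 x hx y hy]
    mer := mer_of hn Q.forms h4 fun x hx y hy => by
      filter_upwards [(h1 x hx).mem_nhds hy] with z hz h9
      have h10 : z ∈ T₀ x ∩ π₀ x ⁻¹' {π₀ x y} := h8 x hx y hy ▸ ⟨hz, h9⟩
      exact (hD x hx).sub y (h3 x hx hy) z h10.1 h10.2.symm
    Bad := ⋃ g : G, g • Q.B
    bad_thin := cov_iff_sthM'.1 (HA.cov_iUnion fun g => by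
      rw [hsm]
      simpa using (hb g).cov Q.cov)
    bad_inv := fun g x hx => by
      obtain ⟨g', hg'⟩ := mem_iUnion.1 hx
      exact mem_iUnion.2 ⟨g * g', by rw [mul_smul]; exact smul_mem_smul_set hg'⟩
    max := fun x hx hB Z hK hc hZ hxZ => hM _ M _ k Q _ _ _ (hD x hx) x (hx₀ x hx)
      (fun h => hB (mem_iUnion.2 ⟨1, by rwa [one_smul]⟩)) Z hK hc (an_of_anM hZ) hxZ }⟩

end Tube

theorem not_compact {n : ℕ} {X : Type} [TopologicalSpace X] {A : Atl n X} {G : Type} [Group G]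
    [Infinite G] (D : MonD A G) [Nonempty (D.cov G)] : ¬ CompactSpace (D.cov G) := fun _ => by
  obtain ⟨e⟩ : Nonempty (D.cov G) := inferInstance
  exact infinite_univ ((D.finite_deck isCompact_univ isCompact_univ).subset
    fun g _ => ⟨e, mem_univ _, mem_univ _⟩)

theorem gredK_of (hO : OutStmt) (hT : TubS) (hU : UniqS) (hM : MaxS) (hK : KeyS) : Sk.GredK := by
  intro n X _ _ _ _ A _ hA P H hH G _ _ D hc
  have : Countable G := Cov.A.countable D
  obtain ⟨k⟩ := hK n X A hA P H hH G D hc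
  obtain ⟨Q⟩ := hO _ _ _ k
  exact ⟨Q.p, Q.pos (not_compact D), (Nat.le_add_right _ _).trans (Q.hpr.trans (finrank_Cn n)).le,
    tube_of hT hU hM (hol_deck D) Q⟩

end Crest.Agent.X261.Sh72
end

-- ▼ part X261/Sh81/Clo
section

/-!
# X261/Sh81/Clo (helper81): the component of a section in the fibres of a proper submersion

* `Jn T π σ` : the points of `T` in the same component of their fibre as the section `σ`;
* `Pre.isOpen_jn`, `Pre.isOpen_diff` : `Jn` is open and closed in `T`;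
* `subm_box` : boxes of submersions.
-/

set_option autoImplicit false
set_option linter.unusedSectionVars false

open Set Filter Topology Module

namespace Crest.Agent.X261.Sh81

open Crest.Agent.X261.Ans

section Top

variable {M B : Type} [TopologicalSpace M] [TopologicalSpace B]

/-- the points joined to the section inside their fibre -/
def Jn (T : Set M) (π : M → B) (σ : B → M) : Set M :=
  {y | y ∈ connectedComponentIn (T ∩ π ⁻¹' {π y}) (σ (π y))}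

/-- an open map with boxes and a section -/
structure Pre (T : Set M) (π : M → B) (σ : B → M) : Prop where
  opn : IsOpen T
  cont : ∀ y ∈ T, ContinuousAt π y
  scont : ∀ y ∈ T, ContinuousAt σ (π y)
  smem : ∀ y ∈ T, σ (π y) ∈ T ∧ π (σ (π y)) = π y
  box : ∀ c ∈ T, ∃ V ∈ 𝓝 c, ∀ y ∈ V, ∀ z ∈ V, π y = π z →
    z ∈ connectedComponentIn (T ∩ π ⁻¹' {π y}) y
  opm : ∀ c ∈ T, ∀ V ∈ 𝓝 c, π '' V ∈ 𝓝 (π c)
  prop : ∀ c ∈ T, ∃ K ∈ 𝓝 (π c), IsCompact (T ∩ π ⁻¹' K)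

variable {T : Set M} {π : M → B} {σ : B → M}

theorem jn_sub : Jn T π σ ⊆ T := fun _ hy => (connectedComponentIn_subset _ _ hy).1

theorem jn_fib (t : B) :
    Jn T π σ ∩ π ⁻¹' {t} = connectedComponentIn (T ∩ π ⁻¹' {t}) (σ t) := by
  ext y
  constructor
  · rintro ⟨h1, h2⟩
    obtain rfl : π y = t := h2
    exact h1
  · intro h
    obtain rfl : π y = t := (connectedComponentIn_subset _ _ h).2
    exact ⟨h, rfl⟩

theorem Pre.sec_mem (h : Pre T π σ) {y : M} (hy : y ∈ T) : σ (π y) ∈ Jn T π σ := by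
  obtain ⟨h1, h2⟩ := h.smem y hy
  change σ (π y) ∈ connectedComponentIn (T ∩ π ⁻¹' {π (σ (π y))}) (σ (π (σ (π y))))
  rw [h2]
  exact mem_connectedComponentIn ⟨h1, h2⟩

theorem Pre.isOpen_jn (h : Pre T π σ) : IsOpen (Jn T π σ) := by
  refine isOpen_iff_mem_nhds.2 fun c hc => ?_
  have hcT := jn_sub hc
  obtain ⟨s1, s2⟩ := h.smem c hcT
  have hs : σ (π c) ∈ connectedComponentIn (T ∩ π ⁻¹' {π c}) (σ (π c)) :=
    mem_connectedComponentIn ⟨s1, s2⟩
  have key : ∀ V : Set M, (∀ y ∈ V, ∀ z ∈ V, π y = π z →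
      z ∈ connectedComponentIn (T ∩ π ⁻¹' {π y}) y) → ∀ a ∈ T, ∀ b ∈ T, V ∈ 𝓝 a → V ∈ 𝓝 b →
      π a = π b → Jn T π σ ∈ 𝓝 a → Jn T π σ ∈ 𝓝 b := by
    intro V hV a ha b hb h1 h2 h3 h4
    have h5 := h.opm a ha _ (inter_mem h1 h4)
    rw [h3] at h5
    filter_upwards [h2, h.cont b hb h5] with y hy1 hy2
    obtain ⟨y', ⟨k1, k2⟩, k3⟩ := hy2
    have k4 := hV y' k1 y hy1 k3
    change y' ∈ connectedComponentIn (T ∩ π ⁻¹' {π y'}) (σ (π y')) at k2
    rw [← connectedComponentIn_eq k2, k3] at k4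
    exact k4
  have h0 : Jn T π σ ∈ 𝓝 (σ (π c)) := by
    obtain ⟨V, hV, hb⟩ := h.box _ s1
    have h1 : ContinuousAt (fun y => σ (π y)) (σ (π c)) :=
      ContinuousAt.comp (f := π) (h.scont _ s1) (h.cont _ s1)
    have h2 : ∀ᶠ y in 𝓝 (σ (π c)), σ (π y) ∈ V := h1.eventually (by beta_reduce; rw [s2]; exact hV)
    filter_upwards [hV, h2, h.opn.mem_nhds s1] with y y1 y2 y3
    have := hb _ y2 y y1 (h.smem y y3).2
    rwa [(h.smem y y3).2] at this
  refine (isPreconnected_connectedComponentIn (F := T ∩ π ⁻¹' {π c}) (x := σ (π c))).induction₂'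
    (fun a b => Jn T π σ ∈ 𝓝 a → Jn T π σ ∈ 𝓝 b) (fun a ha => ?_)
    (fun _ _ _ _ _ _ h1 h2 h3 => h2 (h1 h3)) hs hc h0
  obtain ⟨a1, a2⟩ := connectedComponentIn_subset _ _ ha
  obtain ⟨V, hV, hb⟩ := h.box a a1
  filter_upwards [mem_nhdsWithin_of_mem_nhds (eventually_mem_nhds_iff.2 hV), self_mem_nhdsWithin]
    with b b1 b2
  obtain ⟨b3, b4⟩ := connectedComponentIn_subset _ _ b2
  have e : π a = π b := (show π a = π c from a2).trans (show π b = π c from b4).symm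
  exact ⟨key V hb a a1 b b3 hV b1 e, key V hb b b3 a a1 b1 hV e.symm⟩

theorem isCompact_cc {F : Set M} (hF : IsCompact F) (x : M) :
    IsCompact (connectedComponentIn F x) := by
  by_cases hx : x ∈ F
  · rw [connectedComponentIn_eq_image hx]
    have := isCompact_iff_compactSpace.1 hF
    exact isClosed_connectedComponent.isCompact.image continuous_subtype_val
  · rw [connectedComponentIn_eq_empty hx]
    exact isCompact_empty

theorem Pre.isOpen_diff [T2Space M] [T2Space B] (h : Pre T π σ) : IsOpen (T \ Jn T π σ) := by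
  refine isOpen_iff_mem_nhds.2 fun c hc => ?_
  obtain ⟨K, hK, hKc⟩ := h.prop c hc.1
  have hcont : ContinuousOn π (T ∩ π ⁻¹' K) := fun y hy => (h.cont y hy.1).continuousWithinAt
  have hF : IsCompact (T ∩ π ⁻¹' {π c}) := by
    convert hKc.of_isClosed_subset
      (hcont.preimage_isClosed_of_isClosed hKc.isClosed (isClosed_singleton (x := π c)))
      inter_subset_left using 1
    ext y
    exact ⟨fun hy => ⟨⟨hy.1, by
      rw [mem_preimage, show π y = π c from hy.2]; exact mem_of_mem_nhds hK⟩, hy.2⟩,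
      fun hy => ⟨hy.1.1, hy.2⟩⟩
  obtain ⟨O₁, O₂, o1, o2, o3, o4, o5⟩ := SeparatedNhds.of_isCompact_isCompact
    (isCompact_cc hF (σ (π c))) (hF.diff h.isOpen_jn)
    (by rw [← jn_fib]; exact disjoint_left.2 fun y h1 h2 => h2.2 h1.1)
  have h1 : IsClosed (π '' ((T ∩ π ⁻¹' K) \ (O₁ ∪ O₂))) :=
    ((hKc.diff (o1.union o2)).image_of_continuousOn (hcont.mono sdiff_subset)).isClosed
  have h2 : π c ∉ π '' ((T ∩ π ⁻¹' K) \ (O₁ ∪ O₂)) := by
    rintro ⟨y, ⟨y1, y2⟩, y3⟩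
    by_cases hy : y ∈ Jn T π σ
    · exact y2 (Or.inl (o3 ((jn_fib (T := T) (σ := σ) (π c)).le ⟨hy, y3⟩)))
    · exact y2 (Or.inr (o4 ⟨⟨y1.1, y3⟩, hy⟩))
  have h3 : σ (π c) ∈ O₁ := o3 (mem_connectedComponentIn (h.smem c hc.1))
  have h4 : ContinuousAt (fun y => σ (π y)) c :=
    ContinuousAt.comp (f := π) (h.scont _ hc.1) (h.cont _ hc.1)
  filter_upwards [h.opn.mem_nhds hc.1, h.cont c hc.1 hK,
    h.cont c hc.1 (h1.isOpen_compl.mem_nhds h2), h4 (o1.mem_nhds h3),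
    o2.mem_nhds (o4 ⟨⟨hc.1, rfl⟩, hc.2⟩)] with y y1 y2 y3 y4 y5
  refine ⟨y1, fun hy => ?_⟩
  have h5 : connectedComponentIn (T ∩ π ⁻¹' {π y}) (σ (π y)) ⊆ O₁ ∪ O₂ := by
    intro z hz
    obtain ⟨z1, z2⟩ := connectedComponentIn_subset _ _ hz
    by_contra z3
    exact y3 ⟨z, ⟨⟨z1, by rw [mem_preimage, show π z = π y from z2]; exact y2⟩, z3⟩, z2⟩
  exact disjoint_left.1 o5 (isPreconnected_connectedComponentIn.subset_left_of_subset_union o1 o2 o5
    h5 ⟨σ (π y), mem_connectedComponentIn (h.smem y y1), y4⟩ hy) y5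

end Top

variable {E F : Type} [NormedAddCommGroup E] [NormedSpace ℂ E] [FiniteDimensional ℂ E]
  [NormedAddCommGroup F] [NormedSpace ℂ F] [FiniteDimensional ℂ F]
  {M : Type} [TopologicalSpace M] {A : HA E M}

/-- boxes of submersions -/
theorem subm_box {π : M → F} {c : M} (h : A.Subm (HA.self F) π c) {T : Set M} (hT : T ∈ 𝓝 c) :
    ∃ V ∈ 𝓝 c, ∀ y ∈ V, ∀ z ∈ V, π y = π z → z ∈ connectedComponentIn (T ∩ π ⁻¹' {π y}) y := by
  obtain ⟨i, hi⟩ := A.cover c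
  have ha := (HA.hol_self_iff hi).1 h.hol
  obtain ⟨L, hL⟩ := C2.exists_rinv ((HA.subm_self_iff h.hol hi).1 h)
  obtain ⟨O, O', G, Ψ, h1, h2, h3, h4, -, h6, h7, h8, h9⟩ := C2.straight ha hL
    (inter_mem (HA.ev_target hi) (HA.tendsto_symm hi hT))
  obtain ⟨r, hr, hb⟩ := Metric.isOpen_iff.1 h2 _ (h8 _ h3).1
  have h10 : ∀ᶠ z in 𝓝 (A.e i c), z ∈ O ∧ Ψ z ∈ Metric.ball (Ψ (A.e i c)) r :=
    (h1.eventually_mem h3).and ((h7 _ h3).continuousAt (Metric.ball_mem_nhds _ hr))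
  refine ⟨_, ((HA.ev_chart' hi).1 h10).and (HA.ev_source hi), fun y hy z hz e => ?_⟩
  set S : Set E := Metric.ball (Ψ (A.e i c)) r ∩
    fderiv ℂ (fun z => π ((A.e i).symm z)) (A.e i c) ⁻¹' {π y} with hS
  have hc : IsPreconnected S :=
    ((convex_ball _ _).inter ((convex_singleton (π y)).linear_preimage
      ((fderiv ℂ (fun z => π ((A.e i).symm z)) (A.e i c)).toLinearMap.restrictScalars
        ℝ))).isPreconnected
  have hc' : IsPreconnected ((fun w => (A.e i).symm (G w)) '' S) :=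
    hc.image _ fun w hw => (ContinuousAt.comp (f := G)
      ((A.e i).continuousAt_symm (h4 (h9 w (hb hw.1)).1).1)
      (h6 w (hb hw.1)).continuousAt).continuousWithinAt
  have hm : ∀ u : M, ((A.e i u ∈ O ∧ Ψ (A.e i u) ∈ Metric.ball (Ψ (A.e i c)) r) ∧
      u ∈ (A.e i).source) → π u = π y → u ∈ (fun w => (A.e i).symm (G w)) '' S := by
    intro u hu e
    obtain ⟨-, k2, k3⟩ := h8 _ hu.1.1
    refine ⟨Ψ (A.e i u), ⟨hu.1.2, ?_⟩, ?_⟩
    · rw [mem_preimage, k3, (A.e i).left_inv hu.2, e]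
      rfl
    · beta_reduce
      rw [k2, (A.e i).left_inv hu.2]
  refine hc'.subset_connectedComponentIn (hm y hy rfl) ?_ (hm z hz e.symm)
  rintro _ ⟨w, hw, rfl⟩
  obtain ⟨k1, -, k3⟩ := h9 w (hb hw.1)
  exact ⟨(h4 k1).2, k3.trans hw.2⟩

end Crest.Agent.X261.Sh81
end

-- ▼ part X261/Sh81/Tub
section

/-!
# X261/Sh81/Tub (helper81): tube data through the general point

* `PT` : a proper holomorphic map `τ : T₀ → B₀` which is a foliation chart of `Y` on `U₀`;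
* `exists_pt` : its existence near a point where `Y` is a graph;
* `PT.dat` : tube data over the regular values;
* `cov_compl` : the points which lie in no tube datum form a thin set.
-/

set_option autoImplicit false
set_option linter.unusedSectionVars false

open Set Filter Topology Module

namespace Crest.Agent.X261.Sh81

open Crest.Agent.X261.Ans Crest.Agent.X261.Sh97

variable {E : Type} [NormedAddCommGroup E] [NormedSpace ℂ E] [FiniteDimensional ℂ E]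
  {M : Type} [TopologicalSpace M] [T2Space M] {A : HA E M} {Y : Set (M × M)} {p : ℕ}

/-- a proper holomorphic map which is a foliation chart on `U₀` -/
structure PT (A : HA E M) (Y : Set (M × M)) {p : ℕ} (T₀ U₀ : Set M) (τ : M → Fin p → ℂ)
    (B₀ : Set (Fin p → ℂ)) : Prop where
  opT : IsOpen T₀
  opU : IsOpen U₀
  opB : IsOpen B₀
  sub : U₀ ⊆ T₀
  hol : ∀ y ∈ T₀, A.Hol (HA.self (Fin p → ℂ)) τ y
  mem : ∀ y ∈ T₀, τ y ∈ B₀
  prop : ∀ K ⊆ B₀, IsCompact K → IsCompact (T₀ ∩ τ ⁻¹' K)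
  subm : ∀ y ∈ U₀, A.Subm (HA.self (Fin p → ℂ)) τ y
  rel : ∀ y ∈ U₀, ∀ z ∈ U₀, τ y = τ z → (y, z) ∈ Y

/-- the classes of the points near `x` are near the class of `x` -/
theorem usc_fib (A : HA E M) (hb : BiP Y) {x : M} {N : Set M} (hN : N ∈ 𝓝ˢ {b | (x, b) ∈ Y}) :
    ∀ᶠ u in 𝓝 x, ∀ b, (u, b) ∈ Y → b ∈ N := by
  have := A.locallyCompact
  obtain ⟨K, hK, hKc⟩ := exists_compact_mem_nhds x
  have h1 : IsClosed (Prod.fst '' ((Y ∩ Prod.fst ⁻¹' K) \ Prod.snd ⁻¹' interior N)) :=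
    (((hb K hK).1.diff (isOpen_interior.preimage continuous_snd)).image continuous_fst).isClosed
  have h2 : x ∉ Prod.fst '' ((Y ∩ Prod.fst ⁻¹' K) \ Prod.snd ⁻¹' interior N) := by
    rintro ⟨⟨a, b⟩, ⟨⟨k1, -⟩, k2⟩, rfl⟩
    exact k2 (subset_interior_iff_mem_nhdsSet.2 hN k1)
  filter_upwards [hKc, h1.isOpen_compl.mem_nhds h2] with u u1 u2 b hb
  by_contra h3
  exact u2 ⟨(u, b), ⟨⟨hb, u1⟩, fun h => h3 (interior_subset h)⟩, rfl⟩

theorem fib_cpt (hb : BiP Y) {K : Set M} (hK : IsCompact K) :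
    IsCompact {b | ∃ u ∈ K, (u, b) ∈ Y} := by
  convert (hb K hK).1.image continuous_snd using 1
  ext b
  constructor
  · rintro ⟨u, h1, h2⟩
    exact ⟨(u, b), ⟨h2, h1⟩, rfl⟩
  · rintro ⟨⟨u, b⟩, ⟨h2, h1⟩, rfl⟩
    exact ⟨u, h1, h2⟩

theorem exists_pt (hb : BiP Y) {x : M} {U : Set M} {π : M → Fin p → ℂ}
    (g : GrAt A Y p x U π) : ∃ (T₀ U₀ : Set M) (τ : M → Fin p → ℂ) (B₀ : Set (Fin p → ℂ)),
      PT A Y T₀ U₀ τ B₀ ∧ x ∈ U₀ := by
  classical
  obtain ⟨σ, s1, s2, s3⟩ := (g.subm x g.mem).sec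
  have ht : Tendsto σ (𝓝 (π x)) (𝓝 x) := by
    have := s1.1.tendsto
    rwa [s2] at this
  let Gd : Set (Fin p → ℂ) → M → Prop := fun B' b => ∃ τ : M → Fin p → ℂ,
    A.Hol (HA.self (Fin p → ℂ)) τ b ∧ ∀ᶠ b' in 𝓝 b, ∀ t ∈ B', ((σ t, b') ∈ Y ↔ t = τ b')
  have hF : IsCompact {b | (x, b) ∈ Y} := by
    simpa using fib_cpt hb (isCompact_singleton (x := x))
  have h1 : ∃ B' ∈ 𝓝 (π x), ∀ᶠ b in 𝓝ˢ {b | (x, b) ∈ Y}, Gd B' b := by
    have mono : ∀ B₁ B₂ b, B₁ ⊆ B₂ → Gd B₂ b → Gd B₁ b := fun B₁ B₂ b h ⟨τ, k1, k2⟩ =>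
      ⟨τ, k1, k2.mono fun b' hb' t ht => hb' t (h ht)⟩
    refine hF.induction_on (p := fun S => ∃ B' ∈ 𝓝 (π x), ∀ᶠ b in 𝓝ˢ S, Gd B' b)
      ⟨univ, univ_mem, by simp⟩ ?_ ?_ ?_
    · rintro S S' h ⟨B', k1, k2⟩
      exact ⟨B', k1, k2.filter_mono (nhdsSet_mono h)⟩
    · rintro S S' ⟨B₁, k1, k2⟩ ⟨B₂, k3, k4⟩
      refine ⟨B₁ ∩ B₂, inter_mem k1 k3, ?_⟩
      rw [nhdsSet_union, eventually_sup]
      exact ⟨k2.mono fun b => mono _ _ b inter_subset_left,
        k4.mono fun b => mono _ _ b inter_subset_right⟩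
    · intro b hxb
      obtain ⟨τ, k1, k2⟩ := g.gr b hxb
      have k3 : Tendsto (fun q : (Fin p → ℂ) × M => (σ q.1, q.2)) (𝓝 (π x) ×ˢ 𝓝 b) (𝓝 (x, b)) := by
        rw [nhds_prod_eq]
        exact (ht.comp tendsto_fst).prodMk tendsto_snd
      obtain ⟨P₁, k4, P₂, k5, k6⟩ := eventually_prod_iff.1
        ((k3.eventually k2).and (tendsto_fst.eventually s3))
      refine ⟨interior {b | Gd {t | P₁ t} b}, mem_nhdsWithin_of_mem_nhds (interior_mem_nhds.2 ?_),
        _, k4, mem_of_superset isOpen_interior.mem_nhdsSet_self interior_subset⟩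
      filter_upwards [k1.eventually, k5.eventually_nhds] with b' k7 k8
      refine ⟨τ, k7, k8.mono fun b'' k9 t ht => ?_⟩
      obtain ⟨e1, e2⟩ := k6 ht k9
      rw [e1, e2]
  obtain ⟨B', hB', hN⟩ := h1
  obtain ⟨B₀, b1, b2, b3⟩ := _root_.eventually_nhds_iff.1
    ((((ht.eventually (usc_fib A hb hN)).and hB').and s3).and
      (s1.eventually.and (ht.eventually (g.opn.mem_nhds g.mem))))
  let T₀ : Set M := {b | ∃ t ∈ B₀, (σ t, b) ∈ Y}
  let τ : M → Fin p → ℂ := fun b => if h : b ∈ T₀ then h.choose else 0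
  have hτ : ∀ b ∈ T₀, τ b ∈ B₀ ∧ (σ (τ b), b) ∈ Y := fun b h => by
    simp only [τ, dif_pos h]
    exact h.choose_spec
  have key : ∀ b ∈ T₀, ∃ τ' : M → Fin p → ℂ, A.Hol (HA.self (Fin p → ℂ)) τ' b ∧
      ∀ᶠ b' in 𝓝 b, b' ∈ T₀ ∧ τ' b' = τ b' ∧ ∀ t ∈ B₀, (σ t, b') ∈ Y → t = τ b' := by
    rintro b ⟨t, t1, t2⟩
    obtain ⟨τ', k1, k2⟩ : Gd B' b := (b1 t t1).1.1.1 b t2
    have k3 : τ' b ∈ B₀ := (k2.self_of_nhds t (b1 t t1).1.1.2).1 t2 ▸ t1
    refine ⟨τ', k1, ?_⟩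
    filter_upwards [k2, k1.1 (b2.mem_nhds k3)] with b' k4 k5
    have k6 : b' ∈ T₀ := ⟨τ' b', k5, (k4 _ (b1 _ k5).1.1.2).2 rfl⟩
    have k7 : τ' b' = τ b' := ((k4 _ (b1 _ (hτ b' k6).1).1.1.2).1 (hτ b' k6).2).symm
    exact ⟨k6, k7, fun s hs h => k7 ▸ (k4 s (b1 s hs).1.1.2).1 h⟩
  have uniq : ∀ t ∈ B₀, ∀ b, (σ t, b) ∈ Y → b ∈ T₀ ∧ τ b = t := fun t ht b h => by
    obtain ⟨τ', -, k⟩ := key b ⟨t, ht, h⟩
    exact ⟨⟨t, ht, h⟩, (k.self_of_nhds.2.2 t ht h).symm⟩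
  have hU : IsOpen (U ∩ π ⁻¹' B₀) :=
    ContinuousOn.isOpen_inter_preimage (fun y hy => (g.subm y hy).hol.1.continuousWithinAt) g.opn b2
  have hUT : ∀ u ∈ U ∩ π ⁻¹' B₀, u ∈ T₀ ∧ τ u = π u := fun u hu =>
    uniq _ hu.2 u ((g.iff _ (b1 _ hu.2).2.2 u hu.1).2 (b1 _ hu.2).1.2)
  refine ⟨T₀, U ∩ π ⁻¹' B₀, τ, B₀, ⟨isOpen_iff_mem_nhds.2 fun b h => ?_, hU, b2,
    fun u hu => (hUT u hu).1, fun b h => ?_, fun b h => (hτ b h).1, fun K hK hKc => ?_,
    fun u hu => ?_, fun y hy z hz e => ?_⟩, g.mem, b3⟩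
  · obtain ⟨τ', -, k⟩ := key b h
    exact k.mono fun _ h => h.1
  · obtain ⟨τ', k1, k⟩ := key b h
    exact k1.congr (k.mono fun _ h => h.2.1)
  · convert fib_cpt hb (hKc.image_of_continuousOn (f := σ)
      fun t ht => (b1 t (hK ht)).2.1.1.continuousWithinAt) using 1
    ext b
    constructor
    · exact fun h => ⟨_, ⟨τ b, h.2, rfl⟩, (hτ b h.1).2⟩
    · rintro ⟨_, ⟨t, t1, rfl⟩, t2⟩
      obtain ⟨k1, k2⟩ := uniq t (hK t1) b t2
      exact ⟨k1, by rw [mem_preimage, k2]; exact t1⟩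
  · exact (g.subm u hu.1).congr ((hU.eventually_mem hu).mono fun y hy => (hUT y hy).2.symm)
  · exact (g.iff y hy.1 z hz.1).2 (by rw [← (hUT y hy).2, ← (hUT z hz).2, e])

variable {T₀ U₀ : Set M} {τ : M → Fin p → ℂ} {B₀ : Set (Fin p → ℂ)}

/-- the regular values form an open set -/
theorem PT.reg_nhds (P : PT A Y T₀ U₀ τ B₀) {t : Fin p → ℂ} (ht : t ∈ B₀)
    (h : t ∉ τ '' {y | y ∈ T₀ ∧ ¬ A.Subm (HA.self (Fin p → ℂ)) τ y}) :
    ∀ᶠ s in 𝓝 t, ∀ y ∈ T₀, τ y = s → A.Subm (HA.self (Fin p → ℂ)) τ y := by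
  obtain ⟨K, k1, k2, k3⟩ := local_compact_nhds (P.opB.mem_nhds ht)
  have h1 : IsClosed (τ '' ((T₀ ∩ τ ⁻¹' K) \ {y | A.Subm (HA.self (Fin p → ℂ)) τ y})) :=
    (((P.prop K k2 k3).diff (HA.isOpen_subm _ _ _)).image_of_continuousOn
      fun y hy => (P.hol y hy.1.1).1.continuousWithinAt).isClosed
  have h2 : t ∉ τ '' ((T₀ ∩ τ ⁻¹' K) \ {y | A.Subm (HA.self (Fin p → ℂ)) τ y}) :=
    fun ⟨y, hy, e⟩ => h ⟨y, ⟨hy.1.1, hy.2⟩, e⟩
  filter_upwards [k1, h1.isOpen_compl.mem_nhds h2] with s s1 s2 y hy e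
  by_contra h3
  exact s2 ⟨y, ⟨⟨hy, by rw [mem_preimage, e]; exact s1⟩, h3⟩, e⟩

/-- tube data over the regular values -/
theorem PT.dat (P : PT A Y T₀ U₀ τ B₀) (hY : (A.prod A).An univ Y) {u : M} (hu : u ∈ U₀)
    (h : τ u ∉ τ '' {y | y ∈ T₀ ∧ ¬ A.Subm (HA.self (Fin p → ℂ)) τ y}) :
    ∃ (T : Set M) (O : Set (Fin p → ℂ)), Dat A Y T τ O ∧ u ∈ T := by
  obtain ⟨σ, s1, s2, s3⟩ := (P.subm u hu).sec
  have ht : Tendsto σ (𝓝 (τ u)) (𝓝 u) := by
    have := s1.1.tendsto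
    rwa [s2] at this
  have h0 := P.mem u (P.sub hu)
  obtain ⟨O, b1, b2, b3⟩ := _root_.eventually_nhds_iff.1
    ((((P.reg_nhds h0 h).and (P.opB.eventually_mem h0)).and s3).and
      (s1.eventually.and (ht.eventually (P.opU.mem_nhds hu))))
  have hT : IsOpen (T₀ ∩ τ ⁻¹' O) :=
    ContinuousOn.isOpen_inter_preimage (fun y hy => (P.hol y hy).1.continuousWithinAt) P.opT b2
  have hs : ∀ y ∈ T₀ ∩ τ ⁻¹' O, A.Subm (HA.self (Fin p → ℂ)) τ y := fun y hy =>
    (b1 _ hy.2).1.1.1 y hy.1 rfl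
  have hσ : ∀ t ∈ O, σ t ∈ T₀ ∩ τ ⁻¹' O ∧ τ (σ t) = t := fun t ht =>
    ⟨⟨P.sub (b1 t ht).2.2, by rw [mem_preimage, (b1 t ht).1.2]; exact ht⟩, (b1 t ht).1.2⟩
  have hp : ∀ K ⊆ O, IsCompact K → IsCompact ((T₀ ∩ τ ⁻¹' O) ∩ τ ⁻¹' K) := fun K k1 k2 => by
    rw [inter_assoc, ← preimage_inter, inter_eq_right.2 k1]
    exact P.prop K (fun t ht => (b1 t (k1 ht)).1.1.2) k2
  have Q : Pre (T₀ ∩ τ ⁻¹' O) τ σ :=
    ⟨hT, fun y hy => (hs y hy).hol.1, fun y hy => (b1 _ hy.2).2.1.1, fun y hy => hσ _ hy.2,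
      fun c hc => subm_box (hs c hc) (hT.mem_nhds hc), fun c hc V hV => (hs c hc).image_mem_nhds hV,
      fun c hc => by
        obtain ⟨K, k1, k2, k3⟩ := local_compact_nhds (b2.mem_nhds hc.2)
        exact ⟨K, k1, hp K k2 k3⟩⟩
  have hJ : ∀ t ∈ O, σ t ∈ Jn (T₀ ∩ τ ⁻¹' O) τ σ := fun t ht => by
    have := Q.sec_mem (hσ t ht).1
    rwa [(hσ t ht).2] at this
  have hc : ∀ t, IsPreconnected (Jn (T₀ ∩ τ ⁻¹' O) τ σ ∩ τ ⁻¹' {t}) := fun t => by
    rw [jn_fib]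
    exact isPreconnected_connectedComponentIn
  refine ⟨Jn (T₀ ∩ τ ⁻¹' O) τ σ, O, ⟨Q.isOpen_jn, b2, ?_, fun y hy => hs y (jn_sub hy),
    fun K k1 k2 => ?_, hc, fun y hy z hz e => ?_⟩, s2 ▸ hJ _ b3⟩
  · refine subset_antisymm ?_ fun t ht => ⟨σ t, hJ t ht, (hσ t ht).2⟩
    rintro _ ⟨y, hy, rfl⟩
    exact (jn_sub hy).2
  · convert (hp K k1 k2).diff Q.isOpen_diff using 1
    ext y
    exact ⟨fun hy => ⟨⟨jn_sub hy.1, hy.2⟩, fun k => k.2 hy.1⟩,
      fun hy => ⟨by_contra fun k => hy.2 ⟨hy.1.1, k⟩, hy.1.2⟩⟩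
  · set F := Jn (T₀ ∩ τ ⁻¹' O) τ σ ∩ τ ⁻¹' {τ y} with hF
    have hr : ∀ a ∈ F, A.Reg F (finrank ℂ E - finrank ℂ (Fin p → ℂ)) a := fun a ha => by
      refine (hs a (jn_sub ha.1)).reg_fibre.congr ?_
      filter_upwards [Q.isOpen_jn.mem_nhds ha.1] with w hw
      rw [show τ a = τ y from ha.2]
      exact ⟨fun k => ⟨hw, k⟩, fun k => k.2⟩
    have hy' : τ y ∈ O := (jn_sub hy).2
    have ha : σ (τ y) ∈ F := ⟨hJ _ hy', (hσ _ hy').2⟩
    rcases HA.ident (A := A.prod A) (Z := Y) ((hc (τ y)).prod (hc (τ y)))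
      (fun q hq => (hr _ hq.1).prod (hr _ hq.2)) (hY.mono (subset_univ _)) with k | k
    · exact k (show (y, z) ∈ F ×ˢ F from ⟨⟨hy, rfl⟩, hz, e.symm⟩)
    · have hU := P.opU.mem_nhds (b1 _ hy').2.2
      obtain ⟨q, q1, q2, q3⟩ := mem_closure_iff_nhds.1
        (k.2.2 (show (σ (τ y), σ (τ y)) ∈ F ×ˢ F from ⟨ha, ha⟩)) _ (prod_mem_nhds hU hU)
      exact absurd (P.rel _ q1.1 _ q1.2
        ((show τ q.1 = τ y from q2.1.2).trans (show τ q.2 = τ y from q2.2.2).symm)) q3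

/-- the points which lie in a tube datum -/
def M0 (A : HA E M) (Y : Set (M × M)) (p : ℕ) : Set M :=
  {u | ∃ (T : Set M) (π : M → Fin p → ℂ) (O : Set (Fin p → ℂ)), Dat A Y T π O ∧ u ∈ T}


theorem cov_compl [Countable A.ι] (hY : (A.prod A).An univ Y) (hb : BiP Y)
    {B : Set M} (hB : A.Cov (finrank ℂ E) B)
    (hg : ∀ x, x ∉ B → ∃ (U : Set M) (π : M → Fin p → ℂ), GrAt A Y p x U π) :
    A.Cov (finrank ℂ E) (M0 A Y p)ᶜ := by
  refine (hB.union (T := (M0 A Y p)ᶜ \ B) (HA.cov_of_local fun x hx => ?_)).sub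
    fun y hy => by_contra fun h => h (Or.inr ⟨hy, fun k => h (Or.inl k)⟩)
  obtain ⟨U, π, g⟩ := hg x hx.2
  obtain ⟨T₀, U₀, τ, B₀, P, hU⟩ := exists_pt hb g
  refine ⟨U₀, P.opU.mem_nhds hU, ?_⟩
  have h1 := (HA.cov_critval P.hol).preimage P.subm
  have h2 := (P.subm x hU).finrank_le
  rw [Nat.add_sub_cancel' h2] at h1
  refine h1.sub fun u hu => ⟨hu.2, by_contra fun h => hu.1.1 ?_⟩
  obtain ⟨T, O, D, k⟩ := P.dat hY hu.2 h
  exact ⟨T, τ, O, D, k⟩

end Crest.Agent.X261.Sh81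
end

-- ▼ part X261/Sh81/Uniq
section

/-!
# X261/Sh81/Uniq (helper81): the fibres of the tube data are well defined

* `Dat.good` : at a point with a foliation chart, `Y` is the fibre relation of the datum;
* `Dat.uniq` : two data have the same fibre through a common point;
* `tubS`, `uniqS` : the statements for the output of `Sh97`.
-/

set_option autoImplicit false
set_option linter.unusedSectionVars false

open Set Filter Topology Module

namespace Crest.Agent.X261.Sh81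

open Crest.Agent.X261.Ans Crest.Agent.X261.Sh97

variable {E F : Type} [NormedAddCommGroup E] [NormedSpace ℂ E] [FiniteDimensional ℂ E]
  [NormedAddCommGroup F] [NormedSpace ℂ F] [FiniteDimensional ℂ F]
  {M : Type} [TopologicalSpace M] [T2Space M] {A : HA E M} {Y : Set (M × M)} {p : ℕ}

/-- the fibre relation of a submersion is regular along the diagonal -/
theorem reg_rel {π : M → F} {y : M} (h : A.Subm (HA.self F) π y) :
    (A.prod A).Reg {q | π q.1 = π q.2} (finrank ℂ (E × E) - finrank ℂ F) (y, y) := by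
  obtain ⟨σ, s1, s2, s3⟩ := h.sec
  have e0 : π y - π y + π y = π y := by simp
  have h1 : (HA.self F).Hol (HA.self F) (fun t => t + π y) (π y - π y) :=
    HA.self_hol_iff.2 (analyticAt_id.add analyticAt_const)
  have h2 : (A.prod A).Subm (HA.self F) (fun q => π q.1 - π q.2) (y, y) := by
    refine HA.subm_of_sec ((h.hol.comp (HA.hol_fst A A (y, y))).sub
      (h.hol.comp (HA.hol_snd A A (y, y)))) (σ := fun t => (σ (t + π y), y))
      ((s1.comp_of_eq h1 e0).prodMk (HA.hol_const _ _ _ _)) (by simp [s2]) ?_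
    have h3 : Tendsto (fun t => t + π y) (𝓝 (π y - π y)) (𝓝 (π y)) := by
      have := h1.1.tendsto
      rwa [e0] at this
    filter_upwards [h3.eventually s3] with t ht
    rw [ht, add_sub_cancel_right]
  refine h2.reg_fibre.congr (Eventually.of_forall fun q => ?_)
  simp [sub_eq_zero]

theorem sub_of_clopen {S C : Set M} (hS : IsPreconnected S) (hC : IsClosed C)
    (hne : (S ∩ C).Nonempty) (h : ∀ z ∈ S, z ∈ C → ∀ᶠ w in 𝓝 z, w ∈ S → w ∈ C) : S ⊆ C := by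
  rcases isPreconnected_iff_subset_of_disjoint.1 hS {z | ∀ᶠ w in 𝓝 z, w ∈ S → w ∈ C} Cᶜ
    isOpen_setOfPred_eventually_nhds hC.isOpen_compl
    (fun z hz => or_iff_not_imp_right.2 fun k => h z hz (not_not.1 k))
    (eq_empty_of_forall_notMem fun z hz => hz.2.2 (hz.2.1.self_of_nhds hz.1)) with k | k
  · exact fun z hz => (k hz).self_of_nhds hz
  · obtain ⟨z, z1, z2⟩ := hne
    exact absurd z2 (k z1)

variable {T T' : Set M} {π π' : M → Fin p → ℂ} {O O' : Set (Fin p → ℂ)}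

theorem Dat.mem (D : Dat A Y T π O) {y : M} (hy : y ∈ T) : π y ∈ O := D.img ▸ mem_image_of_mem π hy

theorem Dat.cpt (D : Dat A Y T π O) {y : M} (hy : y ∈ T) : IsCompact (T ∩ π ⁻¹' {π y}) :=
  D.prop _ (singleton_subset_iff.2 (D.mem hy)) isCompact_singleton

theorem Dat.reg (D : Dat A Y T π O) {t : Fin p → ℂ} {y : M} (hy : y ∈ T ∩ π ⁻¹' {t}) :
    A.Reg (T ∩ π ⁻¹' {t}) (finrank ℂ E - finrank ℂ (Fin p → ℂ)) y := by
  refine (D.subm y hy.1).reg_fibre.congr ?_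
  filter_upwards [D.opn.mem_nhds hy.1] with w hw
  rw [show π y = t from hy.2]
  exact ⟨fun k => ⟨hw, k⟩, fun k => k.2⟩

theorem Dat.an (D : Dat A Y T π O) {y : M} (hy : y ∈ T) : A.An univ (T ∩ π ⁻¹' {π y}) :=
  HA.an_of_closed (fun _ _ h => (D.cpt hy).isClosed.closure_subset h) fun _ _ h => (D.reg h).anAt

/-- at a point with a foliation chart, `Y` is the fibre relation of the datum -/
theorem Dat.good (D : Dat A Y T π O) {x : M} (hx : x ∈ T) {U : Set M} {π₀ : M → Fin p → ℂ}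
    (g : GrAt A Y p x U π₀) : ∀ᶠ q in 𝓝 (x, x), q ∈ Y → π q.1 = π q.2 := by
  have hT : ∀ᶠ q in 𝓝 (x, x), q ∈ T ×ˢ T := prod_mem_nhds (D.opn.mem_nhds hx) (D.opn.mem_nhds hx)
  have hU : ∀ᶠ q in 𝓝 (x, x), q ∈ U ×ˢ U :=
    prod_mem_nhds (g.opn.mem_nhds g.mem) (g.opn.mem_nhds g.mem)
  have h := (reg_rel (D.subm x hx)).sub_of_sub (reg_rel (g.subm x g.mem))
    ((hT.and hU).mono fun q hq e => (g.iff _ hq.2.1 _ hq.2.2).1 (D.sub _ hq.1.1 _ hq.1.2 e))
  filter_upwards [h, hU] with q q1 q2 q3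
  exact q1 ((g.iff _ q2.1 _ q2.2).1 q3)

theorem Dat.uniq_loc (D : Dat A Y T π O) (D' : Dat A Y T' π' O') {y : M} (hy : y ∈ T)
    (hy' : y ∈ T') (hd : ∃ᶠ z in 𝓝 y, ∃ (U : Set M) (π₀ : M → Fin p → ℂ), GrAt A Y p z U π₀) :
    ∀ᶠ z in 𝓝 y, π z = π y → π' z = π' y := by
  have h' := (D'.subm y hy').hol
  rcases (reg_rel (D.subm y hy)).dich (Z := {q | π' q.1 = π' q.2})
    (HA.anAt_eq_self (h'.comp (f := Prod.fst) (HA.hol_fst A A (y, y)))
      (h'.comp (f := Prod.snd) (HA.hol_snd A A (y, y)))) with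
    h | ⟨V, v1, v2, -, -, v3⟩
  · exact (HA.hol_inl A A y y).1.eventually h
  · exfalso
    have h1 : ∀ᶠ z in 𝓝 y, (z, z) ∈ V := (HA.hol_diag A y).1.eventually (v1.mem_nhds v2)
    obtain ⟨z, ⟨U, π₀, g⟩, ⟨z1, z2⟩, z3⟩ :=
      (hd.and_eventually ((h1.and (D.opn.mem_nhds hy)).and (D'.opn.mem_nhds hy'))).exists
    obtain ⟨q, ⟨q1, q2⟩, q3, q4⟩ := mem_closure_iff_nhds.1 (v3 (a := (z, z)) ⟨rfl, z1⟩) _
      ((D'.good z3 g).and (prod_mem_nhds (D.opn.mem_nhds z2) (D.opn.mem_nhds z2)))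
    exact q4 (q1 (D.sub _ q2.1 _ q2.2 q3.1))

theorem Dat.uniq_sub (D : Dat A Y T π O) (D' : Dat A Y T' π' O')
    (hd : ∀ y, ∃ᶠ z in 𝓝 y, ∃ (U : Set M) (π₀ : M → Fin p → ℂ), GrAt A Y p z U π₀) {y : M}
    (hy' : y ∈ T') (hy : y ∈ T) : T ∩ π ⁻¹' {π y} ⊆ T' ∩ π' ⁻¹' {π' y} := by
  refine sub_of_clopen (D.conn (π y)) (D'.cpt hy').isClosed ⟨y, ⟨hy, rfl⟩, hy', rfl⟩
    fun z hz h => ?_
  filter_upwards [D.uniq_loc D' hz.1 h.1 (hd z), D'.opn.mem_nhds h.1] with w w1 w2 w3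
  exact ⟨w2, (w1 ((show π w = π y from w3.2).trans (show π z = π y from hz.2).symm)).trans h.2⟩

/-- two data have the same fibre through a common point -/
theorem Dat.uniq (D : Dat A Y T π O) (D' : Dat A Y T' π' O')
    (hd : ∀ y, ∃ᶠ z in 𝓝 y, ∃ (U : Set M) (π₀ : M → Fin p → ℂ), GrAt A Y p z U π₀) {y : M}
    (hy : y ∈ T) (hy' : y ∈ T') : T ∩ π ⁻¹' {π y} = T' ∩ π' ⁻¹' {π' y} :=
  subset_antisymm (D.uniq_sub D' hd hy' hy) (D'.uniq_sub D hd hy hy')

/-- TUB -/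
theorem tubS [Countable A.ι] {k : Key A} (Q : Out k) : A.Cov (finrank ℂ E)
    {x | ¬ ∃ (T : Set M) (π : M → Fin Q.p → ℂ) (O : Set (Fin Q.p → ℂ)), Dat A Q.Y T π O ∧ x ∈ T} :=
  cov_compl Q.irr.an Q.bip Q.cov Q.gr

/-- UNIQ -/
theorem uniqS {k : Key A} (Q : Out k) {T T' : Set M} {π π' : M → Fin Q.p → ℂ}
    {O O' : Set (Fin Q.p → ℂ)} (D : Dat A Q.Y T π O) (D' : Dat A Q.Y T' π' O') {y : M}
    (hy : y ∈ T) (hy' : y ∈ T') : T ∩ π ⁻¹' {π y} = T' ∩ π' ⁻¹' {π' y} :=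
  D.uniq D' (fun y => (Q.cov.frequently_notMem y).mono Q.gr) hy hy'

/-- MAX -/
theorem maxS {k : Key A} (Q : Out k) {T : Set M} {π : M → Fin Q.p → ℂ} {O : Set (Fin Q.p → ℂ)}
    (D : Dat A Q.Y T π O) {x : M} (hx : x ∈ T) (hB : x ∉ Q.B) {Z : Set M} (hK : IsCompact Z)
    (hc : IsPreconnected Z) (hZ : A.An univ Z) (hxZ : x ∈ Z) : Z ⊆ T ∩ π ⁻¹' {π x} := by
  obtain ⟨U, π₀, g⟩ := Q.gr x hB
  obtain ⟨σ, s1, s2, s3⟩ := (D.subm x hx).sec
  have ht : Tendsto σ (𝓝 (π x)) (𝓝 x) := by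
    have := s1.1.tendsto
    rwa [s2] at this
  refine sub_of_clopen hc (D.cpt hx).isClosed ⟨x, hxZ, hx, rfl⟩ fun b _ h => ?_
  have hπ : Tendsto π (𝓝 b) (𝓝 (π x)) := by
    have := (D.subm b h.1).hol.1.tendsto
    rwa [show π b = π x from h.2] at this
  obtain ⟨N, n1, n2, n3⟩ := _root_.eventually_nhds_iff.1
    ((hπ.eventually ((s1.eventually.and s3).and (ht.eventually (D.opn.mem_nhds hx)))).and
      (D.opn.mem_nhds h.1))
  have hZN : A.An N Z := hZ.mono (subset_univ _)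
  have key : ∀ C, A.Comp N Z C → ∀ᶠ w in 𝓝 b, w ∈ C → π w = π x := by
    intro C hC
    obtain ⟨c1, d, c2⟩ := hC.irr n2 hZN
    obtain ⟨c, hc'⟩ := c2.sub_iUnion n2 (Z := fun c => (fun y => (x, σ (π y))) ⁻¹' k.Z c)
      (fun c => (k.an c).preimage (fun y hy => (HA.hol_const _ _ _ _).prodMk
        ((n1 y hy).1.1.1.comp (D.subm y (n1 y hy).2).hol)) (mapsTo_univ _ _))
      (fun y hy => mem_iUnion.2 (k.er _ _ ⟨Z ∪ T ∩ π ⁻¹' {π y}, hK.union (D.cpt (n1 y hy.1).2),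
        hc.union' ⟨y, c1 hy.2, (n1 y hy.1).2, rfl⟩ (D.conn _), hZ.union (D.an (n1 y hy.1).2),
        Or.inl hxZ, Or.inr ⟨(n1 y hy.1).1.2, (n1 y hy.1).1.1.2⟩⟩))
    have h1 : Tendsto (fun y => (x, σ (π y))) (𝓝 b) (𝓝 (x, x)) :=
      tendsto_const_nhds.prodMk_nhds (ht.comp hπ)
    filter_upwards [h1.eventually ((Q.loc x hB c).and (D.good hx g)), n2.mem_nhds n3]
      with w w1 w2 w3
    exact ((w1.2 (w1.1 (hc' ⟨w2, w3⟩))).trans (n1 w w2).1.1.2).symm
  obtain ⟨W, hW, hf⟩ := HA.comp_lf n2 hZN n3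
  filter_upwards [(eventually_all_finite hf).2 fun C hC => key C hC.1, hW, n2.mem_nhds n3]
    with w w1 w2 w3 w4
  obtain ⟨C, hC, w5⟩ := HA.comp_cover n2 hZN w3 w4
  exact ⟨(n1 w w3).2, w1 C ⟨hC, w, w5, w2⟩ w5⟩

end Crest.Agent.X261.Sh81
end

-- ▼ part X261/Sh97/Fd
section

/-!
# X261/Sh97/Fd (helper97): the class of bi-proper irreducible relations
-/

set_option autoImplicit false
set_option linter.unusedSectionVars false

open Set Filter Topology Module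

namespace Crest.Agent.X261.Sh97

open Crest.Agent.X261.Ans

variable {E : Type} [NormedAddCommGroup E] [NormedSpace ℂ E] [FiniteDimensional ℂ E]
  {M : Type} [TopologicalSpace M] {A : HA E M}

/-! ### `Er` and `BiP` -/

theorem cpt_of_eq {X : Type*} [TopologicalSpace X] {S T : Set X} (h : IsCompact S) (e : S = T) :
    IsCompact T := e ▸ h

theorem Er.symm {x y : M} (h : Er A x y) : Er A y x := by
  obtain ⟨Z, h1, h2, h3, h4, h5⟩ := h
  exact ⟨Z, h1, h2, h3, h5, h4⟩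

theorem Er.trans {x y z : M} (h : Er A x y) (h' : Er A y z) : Er A x z := by
  obtain ⟨Z, h1, h2, h3, h4, h5⟩ := h
  obtain ⟨Z', a1, a2, a3, a4, a5⟩ := h'
  exact ⟨Z ∪ Z', h1.union a1, h2.union y h5 a4 a2, h3.union a3, Or.inl h4, Or.inr a5⟩

theorem er_refl [T2Space M] (A : HA E M) (x : M) : Er A x x :=
  ⟨{x}, isCompact_singleton, isPreconnected_singleton, fun y _ => HA.anAt_singleton A x y, rfl, rfl⟩

theorem BiP.sub {Z Y : Set (M × M)} (h : BiP Z) (hY : IsClosed Y) (hs : Y ⊆ Z) : BiP Y :=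
  fun K hK => ⟨cpt_of_eq ((h K hK).1.inter_left hY) (by rw [← inter_assoc, inter_eq_left.2 hs]),
    cpt_of_eq ((h K hK).2.inter_left hY) (by rw [← inter_assoc, inter_eq_left.2 hs])⟩

theorem BiP.swap {Z : Set (M × M)} (h : BiP Z) : BiP (Prod.swap ⁻¹' Z) := fun K hK => by
  constructor
  · have := (h K hK).2.image continuous_swap
    rwa [image_swap_eq_preimage_swap] at this
  · have := (h K hK).1.image continuous_swap
    rwa [image_swap_eq_preimage_swap] at this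

theorem biP_diag : BiP {q : M × M | q.1 = q.2} := fun K hK => by
  have h := hK.image (f := fun x : M => (x, x)) (continuous_id.prodMk continuous_id)
  constructor
  · convert h using 1
    ext ⟨a, b⟩
    constructor
    · rintro ⟨h1, h2⟩
      exact ⟨a, h2, Prod.ext rfl h1⟩
    · rintro ⟨x, h1, h2⟩
      cases h2
      exact ⟨rfl, h1⟩
  · convert h using 1
    ext ⟨a, b⟩
    constructor
    · rintro ⟨h1, h2⟩
      exact ⟨b, h2, Prod.ext h1.symm rfl⟩
    · rintro ⟨x, h1, h2⟩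
      cases h2
      exact ⟨rfl, h1⟩

theorem BiP.map {Z : Set (M × M)} (h : BiP Z) {g f : M → M} (hg : Continuous g)
    (hf : Continuous f) (fg : ∀ x, f (g x) = x) (gf : ∀ x, g (f x) = x) :
    BiP ((fun q : M × M => (f q.1, f q.2)) ⁻¹' Z) := fun K hK => by
  have hG : Continuous fun q : M × M => (g q.1, g q.2) := by fun_prop
  constructor
  · refine cpt_of_eq ((h _ (hK.image hf)).1.image hG) ?_
    ext ⟨a, b⟩
    constructor
    · rintro ⟨⟨u, v⟩, ⟨h1, w, h2, h3⟩, h4⟩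
      cases h4
      refine ⟨by simpa only [mem_preimage, fg] using h1, ?_⟩
      change g u ∈ K
      change f w = u at h3
      rwa [← h3, gf]
    · rintro ⟨h1, h2⟩
      exact ⟨(f a, f b), ⟨h1, a, h2, rfl⟩, Prod.ext (gf a) (gf b)⟩
  · refine cpt_of_eq ((h _ (hK.image hf)).2.image hG) ?_
    ext ⟨a, b⟩
    constructor
    · rintro ⟨⟨u, v⟩, ⟨h1, w, h2, h3⟩, h4⟩
      cases h4
      refine ⟨by simpa only [mem_preimage, fg] using h1, ?_⟩
      change g v ∈ K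
      change f w = v at h3
      rwa [← h3, gf]
    · rintro ⟨h1, h2⟩
      exact ⟨(f a, f b), ⟨h1, b, h2, rfl⟩, Prod.ext (gf a) (gf b)⟩

/-- the class of `x` -/
def cl (Y : Set (M × M)) (x : M) : Set M := {y | (x, y) ∈ Y}

theorem BiP.compact_cl {Z : Set (M × M)} (h : BiP Z) (x : M) : IsCompact (cl Z x) := by
  refine cpt_of_eq ((h {x} isCompact_singleton).1.image continuous_snd) ?_
  ext y
  constructor
  · rintro ⟨⟨a, b⟩, ⟨h1, h2⟩, h3⟩
    cases h3
    change a = x at h2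
    subst h2
    exact h1
  · exact fun hy => ⟨(x, y), ⟨hy, rfl⟩, rfl⟩

theorem an_cl {Z : Set (M × M)} (h : (A.prod A).An univ Z) (x : M) : A.An univ (cl Z x) :=
  h.preimage (fun y _ => HA.hol_inr A A x y) (mapsTo_univ _ _)

/-! ### local structure -/

/-- points of `Z` near `x` lie on components through `x` -/
theorem ev_comp {U Z : Set M} (hU : IsOpen U) (hZ : A.An U Z) {x : M} (hx : x ∈ U) :
    ∀ᶠ y in 𝓝 x, y ∈ Z → ∃ C, A.Comp U Z C ∧ x ∈ C ∧ y ∈ C := by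
  obtain ⟨N, hN, hf⟩ := HA.comp_lf hU hZ hx
  have h1 : ∀ᶠ y in 𝓝 x, ∀ C ∈ {Y | A.Comp U Z Y ∧ (Y ∩ N).Nonempty}, x ∉ C → y ∉ C := by
    rw [eventually_all_finite hf]
    intro C hC
    by_cases hxC : x ∈ C
    · exact Eventually.of_forall fun _ h => (h hxC).elim
    · exact ((hC.1.an hU hZ x hx).eventually_notMem hxC).mono fun _ h _ => h
  filter_upwards [h1, hN, hU.mem_nhds hx] with y h2 h3 h4 h5
  obtain ⟨C, hC, hyC⟩ := HA.comp_cover hU hZ h4 h5
  by_contra hn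
  exact h2 C ⟨hC, y, hyC, h3⟩ (fun hxC => hn ⟨C, hC, hxC, hyC⟩) hyC

theorem er_of_comp {Z C : Set M} (hK : IsCompact Z) (hZ : A.An univ Z) (hC : A.Comp univ Z C)
    {x y : M} (hx : x ∈ C) (hy : y ∈ C) : Er A x y := by
  obtain ⟨h1, d, h2⟩ := hC.irr isOpen_univ hZ
  exact ⟨C, hK.of_isClosed_subset h2.1.isClosed h1, by simpa using h2.preconnected, h2.1, hx, hy⟩

/-- **LOC** -/
theorem ev_er {Z : Set M} (hK : IsCompact Z) (hZ : A.An univ Z) (x : M) :
    ∀ᶠ y in 𝓝 x, y ∈ Z → Er A x y :=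
  (ev_comp isOpen_univ hZ (mem_univ x)).mono fun _ h hy =>
    let ⟨_, h1, h2, h3⟩ := h hy
    er_of_comp hK hZ h1 h2 h3

/-! ### the class -/

variable [T2Space M] [ConnectedSpace M] [Countable A.ι]

/-- the members of the class -/
def Mem (A : HA E M) (Y : Set (M × M)) : Prop :=
  (∃ d, (A.prod A).Irr univ Y d) ∧ (∀ x, (x, x) ∈ Y) ∧ BiP Y

instance : Countable (A.prod A).ι := inferInstanceAs (Countable (A.ι × A.ι))

instance : Countable (A.prod (A.prod A)).ι := inferInstanceAs (Countable (A.ι × A.ι × A.ι))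

theorem not_cov_er {Y₁ Y₂ : Set (M × M)} (h₁ : Mem A Y₁) (h₂ : Mem A Y₂) {C : Set (M × M × M)}
    {d : ℕ} (hC : (A.prod (A.prod A)).Irr univ C d) (hs : C ⊆ FP Y₁ Y₂)
    (hd : ∀ x, (x, x, x) ∈ C) :
    ¬ (A.prod (A.prod A)).Cov d (C ∩ {t | Er A t.1 t.2.2}) := by
  intro hc
  obtain ⟨⟨d₁, a1⟩, -, a3⟩ := h₁
  obtain ⟨⟨d₂, b1⟩, -, b3⟩ := h₂
  obtain ⟨x₀⟩ : Nonempty M := inferInstance
  rcases d with _ | d
  · exact eq_empty_iff_forall_notMem.1 (HA.cov_zero.1 hc) (x₀, x₀, x₀) ⟨hd x₀, er_refl A x₀⟩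
  have hmid : ∀ t : M × M × M, (A.prod (A.prod A)).Hol A (fun t => t.2.1) t :=
    fun t => (HA.hol_snd _ _ t).fst
  obtain ⟨y, hy⟩ := (hc.fibre (fun t _ => hmid t)).dense_compl.nonempty
  have hy' : (A.prod (A.prod A)).Cov (d + 1 - finrank ℂ E)
      (C ∩ {t | Er A t.1 t.2.2} ∩ (fun t : M × M × M => t.2.1) ⁻¹' {y}) := not_not.1 hy
  have e1 := ev_er (a3.swap.compact_cl y) (an_cl a1.swap.1 y) y
  have e2 := ev_er (b3.compact_cl y) (an_cl b1.1 y) y
  have c1 : ContinuousAt (fun t : M × M × M => t.1) (y, y, y) := continuous_fst.continuousAt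
  have c2 : ContinuousAt (fun t : M × M × M => t.2.2) (y, y, y) :=
    continuous_snd.snd.continuousAt
  have e3 : {t : M × M × M | ((t.1, y) ∈ Y₁ → Er A y t.1) ∧ ((y, t.2.2) ∈ Y₂ → Er A y t.2.2)} ∈
      𝓝 (y, y, y) := (c1.eventually e1).and (c2.eventually e2)
  have h1 : (A.prod (A.prod A)).Cov (d + 1 - finrank ℂ E) (C ∩ {t : M × M × M |
      ((t.1, y) ∈ Y₁ → Er A y t.1) ∧ ((y, t.2.2) ∈ Y₂ → Er A y t.2.2)} ∩
      (fun t : M × M × M => t.2.1) ⁻¹' {(fun t : M × M × M => t.2.1) (y, y, y)}) := by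
    refine hy'.sub ?_
    rintro ⟨a, b, c⟩ ⟨⟨h1, h2, h3⟩, h4⟩
    change b = y at h4
    subst h4
    exact ⟨⟨h1, (h2 (hs h1).1).symm.trans (h3 (hs h1).2)⟩, rfl⟩
  rcases hk : d + 1 - finrank ℂ E with _ | s
  · rw [hk] at h1
    exact eq_empty_iff_forall_notMem.1 (HA.cov_zero.1 h1) (y, y, y)
      ⟨⟨hd y, mem_of_mem_nhds e3⟩, rfl⟩
  rw [hk] at h1
  obtain ⟨O, o1, o2, -, -, o3⟩ := HA.usc (hC.1 _ (mem_univ _)) (hmid (y, y, y)) e3 h1
  have e : finrank ℂ E + s + 1 = d + 1 := by omega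
  rw [e] at o3
  exact hC.not_cov isOpen_univ o1 ⟨(y, y, y), ⟨o2, mem_univ _⟩, hd y⟩
    (o3.sub fun t ht => ⟨ht.2, ht.1.1⟩)

theorem mem_comp {Z Y : Set (M × M)} (hZ : (A.prod A).An univ Z) (hb : BiP Z)
    (hY : (A.prod A).Comp univ Z Y) (hd : ∀ x, (x, x) ∈ Y) : Mem A Y :=
  ⟨(hY.irr isOpen_univ hZ).2, hd,
    hb.sub (hY.an isOpen_univ hZ).isClosed (hY.irr isOpen_univ hZ).1⟩

/-- **UP'** -/
theorem up (k : Key A) {Y₁ Y₂ : Set (M × M)} (h₁ : Mem A Y₁) (h₂ : Mem A Y₂)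
    {C : Set (M × M × M)} (hC : (A.prod (A.prod A)).Comp univ (FP Y₁ Y₂) C)
    (hd : ∀ x, (x, x, x) ∈ C) : ∃ Y₃, Mem A Y₃ ∧ ∀ t ∈ C, (t.1, t.2.2) ∈ Y₃ := by
  obtain ⟨h1, d, h2⟩ := hC.irr isOpen_univ (HA.an_FP h₁.1.choose_spec.1 h₂.1.choose_spec.1)
  have han : ∀ c, (A.prod (A.prod A)).An univ
      ((fun t : M × M × M => (t.1, t.2.2)) ⁻¹' k.Z c) := fun c =>
    (k.an c).preimage (fun t _ => HA.hol_pr13 A t) (mapsTo_univ _ _)
  have h3 : ∃ c, univ ∩ C ⊆ (fun t : M × M × M => (t.1, t.2.2)) ⁻¹' k.Z c := by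
    by_contra hn
    refine not_cov_er h₁ h₂ h2 h1 hd ((HA.cov_iUnion fun c =>
      (h2.drop isOpen_univ (han c)).resolve_left fun h => hn ⟨c, h⟩).sub ?_)
    rintro t ⟨h3, h4⟩
    obtain ⟨c, hc⟩ := k.er _ _ h4
    exact mem_iUnion.2 ⟨c, ⟨mem_univ _, h3⟩, hc⟩
  obtain ⟨c, h3⟩ := h3
  obtain ⟨Y, h4, h5⟩ := HA.Irr.img_comp isOpen_univ (k.an c) isOpen_univ h2
    (f := fun t : M × M × M => (t.1, t.2.2)) (fun t _ => HA.hol_pr13 A t)
    (fun t ht => ⟨mem_univ _, h3 ht⟩)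
  exact ⟨Y, mem_comp (k.an c) (k.bip c) h4 fun x => h5 _ ⟨mem_univ _, hd x⟩,
    fun t ht => h5 t ⟨mem_univ _, ht⟩⟩

/-- the class of bi-proper irreducible relations -/
def relK (k : Key A) : RelK A where
  K := {Y | Mem A Y}
  ne := ⟨{q | q.1 = q.2}, ⟨_, HA.irr_diag A⟩, fun _ => rfl, biP_diag⟩
  irr := fun _ h => h.1
  diag := fun _ h => h.2.1
  symm := fun Y ⟨⟨d, h1⟩, h2, h3⟩ =>
    ⟨Prod.swap ⁻¹' Y, ⟨⟨d, h1.swap⟩, h2, h3.swap⟩, fun _ _ h => h⟩
  up := fun _ h₁ _ h₂ _ hC hd => up k h₁ h₂ hC hd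

theorem Mem.map {Y : Set (M × M)} (h : Mem A Y) {g f : M → M} (hb : HA.Bih A A univ univ g f) :
    Mem A ((fun q : M × M => (f q.1, f q.2)) ⁻¹' Y) := by
  obtain ⟨⟨d, h1⟩, h2, h3⟩ := h
  have hg : Continuous g := continuousOn_univ.1 hb.contOn
  have hf : Continuous f := continuousOn_univ.1 hb.symm.contOn
  refine ⟨⟨d, ?_⟩, fun x => h2 _, h3.map hg hf (fun x => hb.fg x (mem_univ _))
    fun x => hb.gf x (mem_univ _)⟩
  have := (hb.prod hb).irr (by rwa [univ_prod_univ] : (A.prod A).Irr (univ ×ˢ univ) Y d)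
  rwa [univ_prod_univ] at this

/-- a bi-proper relation of full dimension forces compactness -/
theorem compact_of_top {Y : Set (M × M)} (h : (A.prod A).Irr univ Y (finrank ℂ E + finrank ℂ E))
    (hb : BiP Y) : CompactSpace M := by
  obtain ⟨q, -, hq⟩ := h.2.1
  have h1 : Y ∈ 𝓝 q := HA.Reg.mem_nhds (A := A.prod A) (by rwa [finrank_prod])
  have h2 : Y = univ := h.1.eq_univ h1
  have := hb.compact_cl q.1
  rw [h2] at this
  exact ⟨this⟩

/-! ### compact analytic sets through a general point -/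

theorem loc_key (k : Key A) {Y : Set (M × M)} (hY : (A.prod A).An univ Y)
    (hm : ∀ Y', Mem A Y' → Y' ⊆ Y) (c : ℕ) :
    A.Cov (finrank ℂ E) {x | ¬ ∀ᶠ q in 𝓝 (x, x), q ∈ k.Z c → q ∈ Y} := by
  obtain ⟨h1, x, h2⟩ := HA.loc_along (k.an c) hY (fun x => HA.hol_diag A x)
    fun C hC hd => hm C (mem_comp (k.an c) (k.bip c) hC hd)
  exact h1.cov_of_ne fun h => (h ▸ mem_univ x : x ∈ {x | ¬ ∀ᶠ q in 𝓝 (x, x), q ∈ k.Z c → q ∈ Y}) h2

/-- a compact irreducible analytic set through a general point `x` lies in the class of `x` -/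
theorem irr_sub_cl (k : Key A) {Y : Set (M × M)} (hY : (A.prod A).An univ Y) {x : M}
    (hx : ∀ c, ∀ᶠ q in 𝓝 (x, x), q ∈ k.Z c → q ∈ Y) {C : Set M} {d : ℕ} (hK : IsCompact C)
    (hC : A.Irr univ C d) (hxC : x ∈ C) : C ⊆ cl Y x := by
  obtain ⟨c, hc⟩ := hC.sub_iUnion isOpen_univ (Z := fun c => cl (k.Z c) x)
    (fun c => an_cl (k.an c) x) fun y hy => mem_iUnion.2 (k.er x y
      ⟨C, hK, by simpa using hC.preconnected, hC.1, hxC, hy.2⟩)
  have c1 : ContinuousAt (fun y : M => (x, y)) x := by fun_prop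
  have := hC.sub_of_open isOpen_univ (an_cl hY x) ⟨mem_univ x, hxC⟩
    ((c1.eventually (hx c)).mono fun y h hy => h (hc ⟨mem_univ _, hy⟩))
  exact fun y hy => this ⟨mem_univ _, hy⟩

/-- a compact analytic set lies in the class of `x` near a general point `x` -/
theorem ev_cl (k : Key A) {Y : Set (M × M)} (hY : (A.prod A).An univ Y) {x : M}
    (hx : ∀ c, ∀ᶠ q in 𝓝 (x, x), q ∈ k.Z c → q ∈ Y) {Z : Set M} (hK : IsCompact Z)
    (hZ : A.An univ Z) : ∀ᶠ y in 𝓝 x, y ∈ Z → (x, y) ∈ Y :=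
  (ev_comp isOpen_univ hZ (mem_univ x)).mono fun _ h hy => by
    obtain ⟨C, h1, h2, h3⟩ := h hy
    obtain ⟨h4, d, h5⟩ := h1.irr isOpen_univ hZ
    exact irr_sub_cl k hY hx (hK.of_isClosed_subset h5.1.isClosed h4) h5 h2 h3

end Crest.Agent.X261.Sh97
end

-- ▼ part X261/Sh97/Gr
section

/-!
# X261/Sh97/Gr (helper97): the graph lemma; holomorphic maps from continuous ones
-/

set_option autoImplicit false
set_option linter.unusedSectionVars false

open Set Filter Topology Module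

namespace Crest.Agent.X261.Sh97

open Crest.Agent.X261.Ans

variable {E F : Type} [NormedAddCommGroup E] [NormedSpace ℂ E] [FiniteDimensional ℂ E]
  [NormedAddCommGroup F] [NormedSpace ℂ F] [FiniteDimensional ℂ F]
  {M : Type} [TopologicalSpace M] {A : HA E M}

/-- a continuous map whose graph lies in an analytic set of the right dimension is holomorphic -/
theorem hol_of_graph {τ : M → F} {b : M} (hc : ∀ᶠ y in 𝓝 b, ContinuousAt τ y)
    {Γ : Set (F × M)} (hΓ : ((HA.self F).prod A).AnAt Γ (τ b, b))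
    (hm : ∀ᶠ y in 𝓝 b, (τ y, y) ∈ Γ) {O : Set (F × M)} (hO : O ∈ 𝓝 (τ b, b))
    (hd : ((HA.self F).prod A).Cov (finrank ℂ E + 1) (Γ ∩ O)) : A.Hol (HA.self F) τ b := by
  obtain ⟨i, hi⟩ := A.cover b
  rw [HA.hol_self_iff hi]
  let ψ : E × F → F × M := fun q => (q.2, (A.e i).symm q.1)
  have hψ : ∀ q : E × F, q.1 ∈ (A.e i).target →
      (HA.self (E × F)).Hol ((HA.self F).prod A) ψ q := fun q hq =>
    (HA.self_hol_iff.2 analyticAt_snd).prodMk
      ((HA.hol_symm hq).comp (HA.self_hol_iff.2 analyticAt_fst))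
  have hb : ContinuousAt (fun y => (τ y, y)) b := hc.self_of_nhds.prodMk continuousAt_id
  have h1 : ∀ᶠ y in 𝓝 b, ContinuousAt τ y ∧ (τ y, y) ∈ Γ ∧ (τ y, y) ∈ interior O ∧
      ((HA.self F).prod A).AnAt Γ (τ y, y) :=
    hc.and (hm.and ((hb.eventually (interior_mem_nhds.2 hO)).and (hb.eventually hΓ.eventually)))
  obtain ⟨U, hU, hUo, hbU⟩ := _root_.mem_nhds_iff.1
    (((HA.ev_chart hi).1 h1).and (HA.ev_target hi))
  have h2 : Ans.Cov (finrank ℂ E + 1) (Prod.swap '' ((univ ×ˢ (A.e i).target) ∩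
      (((HA.self F).prod A).e ((), i)).symm ⁻¹' (Γ ∩ O))) :=
    (hd ((), i)).image fun _ _ => analyticAt_snd.prod analyticAt_fst
  refine graph_hol (Γ := {q | q.1 ∈ (A.e i).target ∧ ψ q ∈ Γ ∩ interior O}) hUo
    (fun z hz => ((hU hz).1.1.comp ((A.e i).continuousAt_symm (hU hz).2)).continuousWithinAt)
    (fun z hz => ⟨⟨(hU hz).2, (hU hz).1.2.1, (hU hz).1.2.2.1⟩, ?_⟩) (h2.sub ?_) _ hbU
  · have h3 := HA.self_anAt.1 (HA.AnAt.preimage (hψ (z, τ ((A.e i).symm z)) (hU hz).2)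
      (hU hz).1.2.2.2)
    refine h3.congr ?_
    have c1 : ContinuousAt (fun q : E × F => q.1) (z, τ ((A.e i).symm z)) :=
      continuous_fst.continuousAt
    filter_upwards [c1.eventually ((A.e i).open_target.mem_nhds (hU hz).2),
      (hψ (z, τ ((A.e i).symm z)) (hU hz).2).cont.eventually
        (isOpen_interior.mem_nhds (hU hz).1.2.2.1)] with q h4 h5
    exact ⟨fun h => ⟨h4, h, h5⟩, fun h => h.2.1⟩
  · rintro ⟨z, t⟩ ⟨h3, h4, h5⟩
    exact ⟨(t, z), ⟨⟨mem_univ _, h3⟩, h4, interior_subset h5⟩, rfl⟩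

/-- **graph lemma**: a pure-dimensional analytic set, finite and generically injective over `M`,
is a graph -/
theorem graph_lemma [T2Space M] {Γ : Set (F × M)} {t : F} {b : M} (hq : (t, b) ∈ Γ)
    (hΓ : ((HA.self F).prod A).AnAt Γ (t, b))
    (hi : ∀ᶠ q in 𝓝[≠] (t, b), q ∈ Γ → q.2 ≠ b)
    (hp : ∀ᶠ q in 𝓝 (t, b), q ∈ Γ → ∀ O ∈ 𝓝 q, ¬ ((HA.self F).prod A).Cov (finrank ℂ E) (Γ ∩ O))
    {S : Set M} (hS : A.Cov (finrank ℂ E) S) {W : Set (F × M)} (hW : W ∈ 𝓝 (t, b))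
    (hj : ∀ q ∈ Γ ∩ W, ∀ q' ∈ Γ ∩ W, q.2 = q'.2 → q.2 ∉ S → q = q') :
    ∃ τ : M → F, A.Hol (HA.self F) τ b ∧ ∀ᶠ q in 𝓝 (t, b), (q ∈ Γ ↔ q.1 = τ q.2) := by
  classical
  obtain ⟨O₀, hO₀, hOW, hfin, -⟩ := HA.fib_usc hΓ (HA.hol_snd _ A (t, b)) hi
    (inter_mem hW (hp.and hΓ.eventually))
  set O := interior O₀ with hO
  have hOo : IsOpen O := isOpen_interior
  have hbO : (t, b) ∈ O := mem_interior_iff_mem_nhds.2 hO₀
  have hO' : O ⊆ O₀ := interior_subset
  -- openness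
  have hop : ∀ q ∈ Γ ∩ O, ∀ V ∈ 𝓝 q, Prod.snd '' (Γ ∩ V) ∈ 𝓝 q.2 := by
    intro q hq V hV
    refine HA.image_mem_nhds (hOW (hO' hq.2)).2.2 (HA.hol_snd _ A q) ?_
      ((hOW (hO' hq.2)).2.1 hq.1) hV
    have h1 : ∀ᶠ y in 𝓝[≠] q, y ∉ Γ ∩ O₀ ∩ Prod.snd ⁻¹' {q.2} := by
      have h2 := ((hfin q.2).subset (sdiff_subset (t := {q}))).isClosed.isOpen_compl.mem_nhds
        (x := q) (fun h => h.2 rfl)
      filter_upwards [mem_nhdsWithin_of_mem_nhds h2, self_mem_nhdsWithin] with y h3 h4 h5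
      exact h3 ⟨h5, h4⟩
    filter_upwards [h1, mem_nhdsWithin_of_mem_nhds (hOo.mem_nhds hq.2)] with y h2 h3 h4 h5
    exact h2 ⟨⟨h4, hO' h3⟩, h5⟩
  -- injectivity
  have hinj : ∀ q ∈ Γ ∩ O, ∀ q' ∈ Γ ∩ O, q.2 = q'.2 → q = q' := by
    intro q hq q' hq' e
    by_contra hne
    obtain ⟨V, V', v1, v2, v3, v4, v5⟩ := t2_separation hne
    have h1 := hop q hq _ (inter_mem (v1.mem_nhds v3) (hOo.mem_nhds hq.2))
    have h2 := hop q' hq' _ (inter_mem (v2.mem_nhds v4) (hOo.mem_nhds hq'.2))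
    rw [← e] at h2
    obtain ⟨s, h3, ⟨y, h4, h5⟩, y', h6, h7⟩ :=
      ((hS.frequently_notMem q.2).and_eventually (inter_mem h1 h2)).exists
    have h8 : y = y' := hj y ⟨h4.1, (hOW (hO' h4.2.2)).1⟩ y' ⟨h6.1, (hOW (hO' h6.2.2)).1⟩
      (h5.trans h7.symm) (h5 ▸ h3)
    exact Set.disjoint_left.1 v5 h4.2.1 (h8 ▸ h6.2.1)
  let τ : M → F := fun s => if h : ∃ u, (u, s) ∈ Γ ∩ O then h.choose else t
  have hτ : ∀ q ∈ Γ ∩ O, τ q.2 = q.1 := by
    intro q hq
    have h : ∃ u, (u, q.2) ∈ Γ ∩ O := ⟨q.1, hq⟩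
    have h1 : τ q.2 = h.choose := dif_pos h
    rw [h1]
    exact congrArg Prod.fst (hinj _ h.choose_spec q hq rfl)
  have hV : Prod.snd '' (Γ ∩ O) ∈ 𝓝 b := hop (t, b) ⟨hq, hbO⟩ O (hOo.mem_nhds hbO)
  have hmem : ∀ s ∈ Prod.snd '' (Γ ∩ O), (τ s, s) ∈ Γ ∩ O := by
    rintro _ ⟨q, h1, rfl⟩
    rw [hτ q h1]
    exact h1
  have hcont : ∀ s ∈ Prod.snd '' (Γ ∩ O), ContinuousAt τ s := by
    intro s hs N hN
    have c1 : Prod.fst ⁻¹' N ∈ 𝓝 (τ s, s) := continuous_fst.continuousAt.preimage_mem_nhds hN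
    refine mem_map.2 (mem_of_superset (hop _ (hmem s hs) _
      (inter_mem c1 (hOo.mem_nhds (hmem s hs).2))) ?_)
    rintro _ ⟨q, h1, rfl⟩
    change τ q.2 ∈ N
    rw [hτ q ⟨h1.1, h1.2.2⟩]
    exact h1.2.1
  have hτb : τ b = t := hτ (t, b) ⟨hq, hbO⟩
  refine ⟨τ, hol_of_graph (Γ := Γ) (O := O) (mem_of_superset hV hcont) (hτb ▸ hΓ)
    (mem_of_superset hV fun s hs => (hmem s hs).1) (hτb ▸ hOo.mem_nhds hbO) ?_, ?_⟩
  · exact HA.cov_of_fibres (s := 0) hOo (fun q h _ => (hOW (hO' h)).2.2)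
      (fun q _ => HA.hol_snd _ A q) fun s => HA.cov_of_countable
        ((hfin s).subset fun q h => ⟨⟨h.1.1, hO' h.1.2⟩, h.2⟩).countable
  · have c1 : ContinuousAt (fun q : F × M => q.2) (t, b) := continuous_snd.continuousAt
    filter_upwards [hOo.mem_nhds hbO, c1.eventually hV] with q h1 h2
    refine ⟨fun h => (hτ q ⟨h, h1⟩).symm, fun h => ?_⟩
    have := (hmem _ h2).1
    rwa [← h] at this

end Crest.Agent.X261.Sh97
end

-- ▼ part X261/Sh97/Out
section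

/-!
# X261/Sh97/Out (helper97): the maximal relation is a graph along the class of a general point
-/

set_option autoImplicit false
set_option linter.unusedSectionVars false

open Set Filter Topology Module

namespace Crest.Agent.X261.Sh97

open Crest.Agent.X261.Ans

variable {E : Type} [NormedAddCommGroup E] [NormedSpace ℂ E] [FiniteDimensional ℂ E]
  {M : Type} [TopologicalSpace M] {A : HA E M}

/-- foliation chart, read on the manifold -/
theorem fol_chart {Y : Set (M × M)} {p : ℕ} {x : M} (h : Ans.Fol A Y p x) :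
    ∃ (U : Set M) (π : M → Fin p → ℂ), IsOpen U ∧ x ∈ U ∧
      (∀ y ∈ U, A.Subm (HA.self (Fin p → ℂ)) π y) ∧
      (∀ y ∈ U, ∀ z ∈ U, (y, z) ∈ Y ↔ π y = π z) ∧
      ∀ y ∈ U, ∀ z ∈ U, (y, z) ∈ Y → ∀ q, (z, q) ∈ Y → (y, q) ∈ Y := by
  obtain ⟨i, U, π, h1, h2, h3, h4, h5, h6⟩ := h
  refine ⟨U, fun y => π (A.e i y), h1, h2, fun y hy => ?_, h5, h6⟩
  exact (HA.self_subm_iff.2 (h4 y hy)).comp (HA.subm_chart (h3 hy))

theorem subm_prod_id {F : Type} [NormedAddCommGroup F] [NormedSpace ℂ F] [FiniteDimensional ℂ F]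
    {N : Type} [TopologicalSpace N] {B : HA F N} {f : M → N} {q : M × M} (h : A.Subm B f q.1) :
    (A.prod A).Subm (B.prod A) (fun q => (f q.1, q.2)) q := by
  obtain ⟨σ, h1, h2, h3⟩ := h.sec
  refine HA.subm_of_sec (h.hol.prodMap (HA.hol_id A q.2)) (σ := fun t => (σ t.1, t.2))
    (HA.Hol.prodMap (x := (f q.1, q.2)) h1 (HA.hol_id A q.2)) (Prod.ext h2 rfl) ?_
  have c1 : ContinuousAt (fun t : N × M => t.1) (f q.1, q.2) := continuous_fst.continuousAt
  exact (c1.eventually h3).mono fun t ht => Prod.ext ht rfl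

variable [T2Space M] [ConnectedSpace M] [Countable A.ι] {k : Key A} (Q : EqvK (relK k))

/-- the points where `Y` is singular along the diagonal -/
def Sig : Set M := {x | ¬ (A.prod A).Reg Q.Y (finrank ℂ E + Q.r) (x, x)}

theorem cov_Sig : A.Cov (finrank ℂ E) (Sig Q) := by
  obtain ⟨x, hx⟩ := Q.ne_good
  exact Q.an_bad.cov_of_ne fun h => (eq_univ_iff_forall.1 h x) hx

theorem hol_mid (A : HA E M) (t : M × M × M) : (A.prod (A.prod A)).Hol A (fun t => t.2.1) t :=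
  (HA.hol_snd _ _ t).fst

/-- the fibres of `pr₁₃` on a component of the fibre product have dimension `≥ r` -/
theorem big_fibre {C : Set (M × M × M)} (hC : (A.prod (A.prod A)).Comp univ (FP Q.Y Q.Y) C)
    (hn : ¬ C ⊆ (fun t => t.2.1) ⁻¹' Sig Q) {t : M × M × M} (ht : t ∈ C) {O : Set (M × M × M)}
    (hO : O ∈ 𝓝 t) : ¬ (A.prod (A.prod A)).Cov Q.r
      (C ∩ O ∩ (fun t : M × M × M => (t.1, t.2.2)) ⁻¹' {(t.1, t.2.2)}) := by
  intro hc
  have hFP := HA.an_FP Q.irr.1 Q.irr.1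
  rcases hr : Q.r with _ | s
  · rw [hr] at hc
    exact eq_empty_iff_forall_notMem.1 (HA.cov_zero.1 hc) t ⟨⟨ht, mem_of_mem_nhds hO⟩, rfl⟩
  rw [hr] at hc
  obtain ⟨hsub, d, hirr⟩ := hC.irr isOpen_univ hFP
  obtain ⟨O', o1, o2, -, o3, -⟩ := HA.usc (hirr.1 t (mem_univ _)) (HA.hol_pr13 A t) hO hc
  obtain ⟨d', K, -, -, k1, k2, k3⟩ := hC.core isOpen_univ hFP
  obtain ⟨u, u1, u2⟩ : (O' ∩ K).Nonempty :=
    mem_closure_iff.1 (k1 ▸ ht : t ∈ univ ∩ closure K).2 O' o1 o2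
  have hd : d' = d := hirr.reg_eq (mem_univ u) (k3 u u2).2.1
  have hthin : (A.prod (A.prod A)).Cov d (univ ∩ C ∩ (fun t => t.2.1) ⁻¹' Sig Q) :=
    (hirr.drop isOpen_univ (Q.an_bad.preimage (fun t _ => hol_mid A t)
      (mapsTo_univ _ _))).resolve_left fun h => hn fun t ht => h ⟨mem_univ _, ht⟩
  obtain ⟨v, ⟨v1, v2, v3⟩, v4⟩ : ∃ v ∈ C ∩ (O' ∩ {z | z ∈ FP Q.Y Q.Y → z ∈ K}),
      v.2.1 ∉ Sig Q := by
    by_contra h
    push Not at h
    exact (hd ▸ (k3 u u2).2.1).not_cov (inter_mem (o1.mem_nhds u1) (k3 u u2).2.2)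
      (hthin.sub fun v hv => ⟨⟨mem_univ _, hv.1⟩, h v hv⟩)
  have v5 : v ∈ K := v3 (hsub v1)
  obtain ⟨a, y, b⟩ := v
  obtain ⟨U, π, hU, hyU, hs, hiff, hsat⟩ := fol_chart (Q.fol y (not_not.1 v4))
  have hreg := (hs y hyU).reg_fibre
  have e : finrank ℂ E - finrank ℂ (Fin Q.p → ℂ) = s + 1 := by
    rw [finrank_fin_fun, ← hr, ← Q.hpr]
    omega
  rw [e] at hreg
  have c1 : ContinuousAt (fun y' : M => (a, y', b)) y := by fun_prop
  refine hreg.not_cov (inter_mem (hU.mem_nhds hyU) (inter_mem (c1.eventually (o1.mem_nhds v2))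
    (c1.eventually (k3 _ v5).2.2))) (((o3 (a, b)).image fun t _ => hol_mid A t).sub ?_)
  rintro y' ⟨h1, h2, h3, h4⟩
  have h5 : (y', y) ∈ Q.Y := (hiff y' h2 y hyU).2 h1
  have h6 : (a, y', b) ∈ FP Q.Y Q.Y :=
    ⟨Q.symm _ _ (hsat y' h2 y hyU h5 a (Q.symm _ _ (hsub v1).1)), hsat y' h2 y hyU h5 b (hsub v1).2⟩
  exact ⟨(a, y', b), ⟨⟨k2 (h4 h6), h3⟩, rfl⟩, rfl⟩

/-- the bad components of the fibre product -/
def BadC : Set (Set (M × M × M)) :=
  {C | (A.prod (A.prod A)).Comp univ (FP Q.Y Q.Y) C ∧ ¬ C ⊆ (fun t => t.2.1) ⁻¹' Sig Q ∧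
    ¬ ∀ q ∈ Q.Y, (q.1, q.2, q.1) ∈ C}

theorem cov_badC {C : Set (M × M × M)} (hC : C ∈ BadC Q) : A.Cov (finrank ℂ E)
    (Prod.fst '' (Q.Y ∩ (fun q : M × M => (q.1, q.2, q.1)) ⁻¹' C)) := by
  obtain ⟨h1, h2, h3⟩ := hC
  have hj : ∀ q : M × M, (A.prod A).Hol (A.prod (A.prod A)) (fun q => (q.1, q.2, q.1)) q :=
    fun q => (HA.hol_fst A A q).prodMk ((HA.hol_snd A A q).prodMk (HA.hol_fst A A q))
  have han : (A.prod A).An univ ((fun q : M × M => (q.1, q.2, q.1)) ⁻¹' C) :=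
    (h1.an isOpen_univ (HA.an_FP Q.irr.1 Q.irr.1)).preimage (fun q _ => hj q) (mapsTo_univ _ _)
  have h4 := (Q.irr.drop isOpen_univ han).resolve_left fun h => h3 fun q hq => h ⟨mem_univ _, hq⟩
  rw [univ_inter] at h4
  rcases hd : finrank ℂ E + Q.r with _ | d
  · rw [hd] at h4
    rw [HA.cov_zero.1 h4, image_empty]
    exact A.cov_empty _
  rw [hd] at h4
  have h5 := HA.cov_image_of_big (B := A) (m := finrank ℂ E) isOpen_univ
    (fun q _ _ => (Q.irr.1.inter han) q (mem_univ _)) (fun q _ => HA.hol_fst A A q)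
    (by rwa [inter_univ]) fun q hq O hO hc => ?_
  · rwa [inter_univ] at h5
  have e : d + 1 - finrank ℂ E = Q.r := by omega
  rw [e] at hc
  have c1 : ContinuousAt (fun t : M × M × M => (t.1, t.2.1)) (q.1, q.2, q.1) := by fun_prop
  refine big_fibre Q h1 h2 hq.1.2 (c1.preimage_mem_nhds hO) ((hc.image fun q _ => hj q).sub ?_)
  rintro ⟨a, y, b⟩ ⟨⟨t1, t2⟩, t3⟩
  obtain ⟨e1, e2⟩ := Prod.ext_iff.1 (mem_singleton_iff.1 t3)
  change a = q.1 at e1
  change b = q.1 at e2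
  have e3 : b = a := e2.trans e1.symm
  subst e3
  exact ⟨(b, y), ⟨⟨⟨((h1.irr isOpen_univ (HA.an_FP Q.irr.1 Q.irr.1)).1 t1).1, t1⟩, t2⟩, e1⟩, rfl⟩

/-- the points that are not general -/
def Bad : Set M := Sig Q ∪ (⋃ c, {x | ¬ ∀ᶠ q in 𝓝 (x, x), q ∈ k.Z c → q ∈ Q.Y}) ∪
  ⋃ C ∈ BadC Q, Prod.fst '' (Q.Y ∩ (fun q : M × M => (q.1, q.2, q.1)) ⁻¹' C)

theorem cov_Bad : A.Cov (finrank ℂ E) (Bad Q) :=
  ((cov_Sig Q).union (HA.cov_iUnion (loc_key k Q.irr.1 Q.max))).union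
    (HA.cov_biUnion ((HA.comp_countable isOpen_univ (HA.an_FP Q.irr.1 Q.irr.1)).mono
      fun _ h => h.1) fun _ h => cov_badC Q h)

theorem loc_of {x : M} (hx : x ∉ Bad Q) (c : ℕ) : ∀ᶠ q in 𝓝 (x, x), q ∈ k.Z c → q ∈ Q.Y :=
  not_not.1 fun h => hx (Or.inl (Or.inr (mem_iUnion.2 ⟨c, h⟩)))

/-- generic transitivity near `(x, b, x)` -/
theorem ev_trans {x b : M} (hx : x ∉ Bad Q) :
    ∀ᶠ t in 𝓝 (x, b, x), t ∈ FP Q.Y Q.Y → t.2.1 ∉ Sig Q → (t.1, t.2.2) ∈ Q.Y := by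
  have hFP := HA.an_FP Q.irr.1 Q.irr.1
  refine (ev_comp isOpen_univ hFP (mem_univ (x, b, x))).mono fun t h ht hs => ?_
  obtain ⟨C, h1, h2, h3⟩ := h ht
  have h4 : ∀ q ∈ Q.Y, (q.1, q.2, q.1) ∈ C := by
    by_contra h4
    exact hx (Or.inr (mem_biUnion (x := C) ⟨h1, fun h => hs (h h3), h4⟩
      ⟨(x, b), ⟨((h1.irr isOpen_univ hFP).1 h2).1, h2⟩, rfl⟩))
  obtain ⟨Y₃, h5, h6⟩ := up k Q.mem Q.mem h1 fun y => h4 (y, y) (Q.diag y)
  exact Q.max Y₃ h5 (h6 t h3)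

/-- **Gr** -/
theorem grAt {x : M} (hx : x ∉ Bad Q) :
    ∃ (U : Set M) (π : M → Fin Q.p → ℂ), GrAt A Q.Y Q.p x U π := by
  obtain ⟨U, π, hU, hxU, hs, hiff, hsat⟩ :=
    fol_chart (Q.fol x (not_not.1 fun h => hx (Or.inl (Or.inl h))))
  refine ⟨U, π, hU, hxU, hs, hiff, hsat, fun b hb => ?_⟩
  obtain ⟨σ, s1, s2, s3⟩ := (hs x hxU).sec
  have hσ : Tendsto σ (𝓝 (π x)) (𝓝 x) := by
    have := s1.cont
    rwa [ContinuousAt, s2] at this
  have c1 : ContinuousAt (fun q : (Fin Q.p → ℂ) × M => q.1) (π x, b) := continuous_fst.continuousAt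
  have hev : ∀ᶠ t in 𝓝 (π x), σ t ∈ U ∧ π (σ t) = t ∧ (HA.self (Fin Q.p → ℂ)).Hol A σ t :=
    (hσ.eventually (hU.mem_nhds hxU)).and (s3.and s1.eventually)
  -- saturation
  have hsat' : ∀ y ∈ U, σ (π y) ∈ U → π (σ (π y)) = π y → ∀ c, (y, c) ∈ Q.Y ↔ (σ (π y), c) ∈ Q.Y :=
    fun y hy h1 h2 c => ⟨hsat _ h1 y hy ((hiff _ h1 y hy).2 h2) c,
      hsat y hy _ h1 ((hiff y hy _ h1).2 h2.symm) c⟩
  have hΦ : ((HA.self (Fin Q.p → ℂ)).prod A).Hol (A.prod A) (fun q => (σ q.1, q.2)) (π x, b) :=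
    HA.Hol.prodMap (x := (π x, b)) s1 (HA.hol_id A b)
  have hT : Tendsto (fun q : ((Fin Q.p → ℂ) × M) × (Fin Q.p → ℂ) × M => (σ q.1.1, q.1.2, σ q.2.1))
      (𝓝 (π x, b) ×ˢ 𝓝 (π x, b)) (𝓝 (x, b, x)) := by
    rw [nhds_prod_eq (x := x), nhds_prod_eq (x := b)]
    exact ((hσ.comp c1).comp tendsto_fst).prodMk
      ((continuous_snd.continuousAt.tendsto.comp tendsto_fst).prodMk
        ((hσ.comp c1).comp tendsto_snd))
  obtain ⟨W, hW, hW'⟩ := Filter.mem_prod_self_iff.1 (hT.eventually (ev_trans Q (b := b) hx))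
  refine (graph_lemma (A := A) (Γ := (fun q => (σ q.1, q.2)) ⁻¹' Q.Y) (t := π x)
    (b := b) (by simpa only [mem_preimage, s2] using hb)
    (HA.AnAt.preimage hΦ (Q.irr.1 _ (mem_univ _))) ?_ ?_ (cov_Sig Q)
    (inter_mem hW (c1.eventually hev)) ?_).imp fun τ ht => ⟨ht.1, ?_⟩
  · have h1 := ev_cl k Q.irr.1 (loc_of Q hx) (Q.mem.2.2.compact_cl b) (an_cl Q.irr.1 b)
    filter_upwards [mem_nhdsWithin_of_mem_nhds (c1.eventually (hev.and (hσ.eventually h1))),
      self_mem_nhdsWithin] with q h2 h3 h4 h5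
    have h6 : (b, σ q.1) ∈ Q.Y := Q.symm _ _ (h5 ▸ h4)
    have h7 := (hiff x hxU _ h2.1.1).1 (h2.2 h6)
    exact h3 (Prod.ext (h2.1.2.1.symm.trans h7.symm) h5)
  · obtain ⟨V, v1, v2, v3⟩ := _root_.mem_nhds_iff.1 hev
    filter_upwards [c1.eventually (v2.mem_nhds v3)] with q h1 h2 O hO hc
    have h3 := hc.preimage (A := A.prod A) (f := fun q : M × M => (π q.1, q.2))
      (U := U ×ˢ univ) fun q hq => subm_prod_id (hs q.1 hq.1)
    have e : finrank ℂ (E × E) - finrank ℂ ((Fin Q.p → ℂ) × E) = Q.r := by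
      rw [finrank_prod, finrank_prod, finrank_fin_fun, ← Q.hpr]
      omega
    rw [e] at h3
    have c2 : ContinuousAt (fun q : M × M => (π q.1, q.2)) (σ q.1, q.2) :=
      (subm_prod_id (q := (σ q.1, q.2)) (hs _ (v1 h1).1)).hol.cont
    have e2 : (π (σ q.1), q.2) = q := Prod.ext (v1 h1).2.1 rfl
    have c3 : ContinuousAt (fun q : M × M => q.1) (σ q.1, q.2) := continuous_fst.continuousAt
    have c4 : ContinuousAt (fun q : (Fin Q.p → ℂ) × M => q.1) q := continuous_fst.continuousAt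
    have h4 : ∀ᶠ y in 𝓝 (σ q.1, q.2), y.1 ∈ U ∧ (π y.1, y.2) ∈ O ∧ π y.1 ∈ V :=
      (c3.eventually (hU.mem_nhds (v1 h1).1)).and (c2.eventually
        (e2.symm ▸ (inter_mem hO (c4.eventually (v2.mem_nhds h1)) :
          {y | y ∈ O ∧ y.1 ∈ V} ∈ 𝓝 q)))
    obtain ⟨O', o1, o2, o3⟩ := _root_.mem_nhds_iff.1 h4
    refine Q.irr.not_cov isOpen_univ o2 ⟨_, ⟨o3, mem_univ _⟩, h2⟩ (h3.sub ?_)
    rintro y ⟨⟨y1, -⟩, y2⟩
    obtain ⟨y3, y4, y5⟩ := o1 y1
    exact ⟨⟨y3, mem_univ _⟩, (hsat' y.1 y3 (v1 y5).1 (v1 y5).2.1 y.2).1 y2, y4⟩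
  · rintro q ⟨q1, q2, q3⟩ q' ⟨q4, q5, q6⟩ e hS
    have h1 : (σ q.1, σ q'.1) ∈ Q.Y :=
      hW' (mk_mem_prod q2 q5) ⟨q1, Q.symm _ _ (by rw [e]; exact q4)⟩ hS
    have h2 := (hiff _ q3.1 _ q6.1).1 h1
    exact Prod.ext (q3.2.1.symm.trans (h2.trans q6.2.1)) e
  · have c2 : ContinuousAt (fun q : M × M => (π q.1, q.2)) (x, b) :=
      (subm_prod_id (q := (x, b)) (hs x hxU)).hol.cont
    have c3 : ContinuousAt (fun q : M × M => q.1) (x, b) := continuous_fst.continuousAt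
    filter_upwards [c2.eventually ht.2, c2.eventually (c1.eventually hev),
      c3.eventually (hU.mem_nhds hxU)] with q h1 h2 h3
    exact (hsat' q.1 h3 h2.1 h2.2.1 q.2).trans h1

/-- the output -/
def out : Out k where
  p := Q.p
  r := Q.r
  hpr := Q.hpr
  Y := Q.Y
  irr := Q.irr
  diag := Q.diag
  symm := Q.symm
  bip := Q.mem.2.2
  max := fun Y' d h1 h2 h3 => Q.max Y' ⟨⟨d, h1⟩, h2, h3⟩
  inv := fun g f hb x y h => Q.max _ (Mem.map Q.mem hb) (by
    change (f (g x), f (g y)) ∈ Q.Y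
    rwa [hb.fg x (mem_univ _), hb.fg y (mem_univ _)])
  pos := fun h => by
    by_contra hp
    have e : Q.r = finrank ℂ E := by
      have := Q.hpr
      omega
    exact h (compact_of_top (e ▸ Q.irr) Q.mem.2.2)
  forms := Q.forms
  B := Bad Q
  cov := cov_Bad Q
  gr := fun _ hx => grAt Q hx
  loc := fun _ hx => loc_of Q hx

theorem outStmt_of (h : EqvKStmt) : OutStmt := fun E _ _ _ M _ _ _ A _ k =>
  (h E M A (relK k)).map out

end Crest.Agent.X261.Sh97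
end

-- ▼ part X261/Sh97/Main
section

/-!
# X261/Sh97/Main (helper97): `OutStmt`, unconditional
-/

set_option autoImplicit false

namespace Crest.Agent.X261.Sh97

theorem outStmt : OutStmt := outStmt_of Ans.eqvK

end Crest.Agent.X261.Sh97
end

-- ▼ part X261/Sh72/Main
section

/-!
# X261/Sh72/Main (helper72): `GredK` from `KeyS`
-/

set_option autoImplicit false

namespace Crest.Agent.X261.Sh72

theorem tubS : TubS := fun _ _ _ _ _ _ _ _ _ _ _ Q => Sh81.tubS Q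

theorem uniqS : UniqS := fun _ _ _ _ _ _ _ _ _ _ _ Q _ _ _ _ _ _ D D' _ hy hy' =>
  Sh81.uniqS Q D D' hy hy'

theorem maxS : MaxS := fun _ _ _ _ _ _ _ _ _ _ _ Q _ _ _ D _ hx hB _ hK hc hZ hxZ =>
  Sh81.maxS Q D hx hB hK hc hZ hxZ

theorem gredK_of_key (hK : KeyS) : Sk.GredK := gredK_of Sh97.outStmt tubS uniqS maxS hK

end Crest.Agent.X261.Sh72
end

-- ▼ part X261/Sh97/Key

/-!
# X261 / GRED (helper96): the analytic input `KeyS`
-/

set_option autoImplicit false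
set_option linter.unusedSectionVars false

open Set Filter Topology MeasureTheory Module

namespace Crest.Agent.X261.Sh97.Key

open Crest.Agent.R275.Geo Crest.Agent.R275.Prod363 Crest.Agent.R273.UCov_914
open Crest.Agent.R273.Defs_333 Crest.Agent.R273.Kah_333
open Crest.Agent.R275.Core144 Crest.Agent.R275.GC293
open Crest.Agent.R281.Kp_487 (KP)
open Crest.Agent.X261.BT Crest.Agent.X261.Ans Crest.Agent.X261.Cov.P Crest.Agent.X261.Cov.Q
open Crest.Agent.X261.Gr.Att Crest.Agent.X261.Gr.Vol Crest.Agent.X261.GrL Crest.Agent.X261.Obs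

noncomputable section

variable {n : ℕ} {X : Type} [TopologicalSpace X] {A : Atl n X} {G : Type} [Group G]
  (D : MonD A G)

/-- the weights on `M × M` -/
def hw (H : KP A) (p : (aM D).ι) (x : D.cov G × D.cov G) : ℝ :=
  H.u p.1.1 (D.pr x.1) + H.u p.2.1 (D.pr x.2)

theorem cont_hw (H : KP A) (p : (aM D).ι) : ContinuousOn (hw D H p) ((aM D).e p).source :=
  fun _ hx => (((Env.cont_u H hx.1.1).comp_of_eq
    (D.isLocalHomeomorph.continuous.comp continuous_fst).continuousAt rfl).add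
      ((Env.cont_u H hx.2.1).comp_of_eq
        (D.isLocalHomeomorph.continuous.comp continuous_snd).continuousAt rfl)).continuousWithinAt

theorem qw_q {H : KP A} {U : Nq D → EReal} (h : QW (HA.of (aN D)) (kN D H).u U) :
    QW (aM D) (hw D H) fun x => U (q D x) := fun p => by
  refine (((h ((p.1.1, p.2.1), toBi (p.1.2 * p.2.2⁻¹))).comp_clm (appL n n)).mono
    fun z hz => ⟨by simpa using (show z.1 ∈ (A.e p.1.1).target from hz.1),
      by simpa using (show z.2 ∈ (A.e p.2.1).target from hz.2)⟩).congr fun z hz => ?_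
  have e := read_q D (p := p.1) (r := p.2) hz.1 hz.2
  exact congrArg (fun y => U y + (((kN D H).u ((p.1.1, p.2.1), toBi (p.1.2 * p.2.2⁻¹)) y : ℝ) :
    EReal)) e.symm

theorem exists_U [CompactSpace X] [T2Space X] [Finite A.ι] [Countable G] (P : Part A) {H : KP A}
    (hH : H.Pos) {c : ℝ} (hc : 0 ≤ c) : ∃ U : Nq D → EReal, QW (HA.of (aN D)) (kN D H).u U ∧
      IsCompact (Zu (aN D) U 1) ∧ (HA.of (aN D)).An univ (Zu (aN D) U 1) ∧
      ∀ x, Pole (aM D) (fun y => U (q D y)) (x, x) c := by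
  let _ : MeasurableSpace (Nq D) := borel _
  have : BorelSpace (Nq D) := ⟨rfl⟩
  obtain ⟨C, O, L, hC, h⟩ := exists_obst_N D hH
  obtain ⟨f, h⟩ := h c hc
  have hN := pos_N D hH
  have hS := slow_N D P hH
  obtain ⟨S⟩ := exists_ubN D hH
  have hq : ∀ s, QP (sc (max (c * C) 1) (kN D H)) O (f s) := fun s =>
    QP.sc_le (pos_semi hN) (h.qp s) (le_max_left _ _)
  have ho : ∀ s : ℕ, ∀ x ∈ O, x ∉ L → f s x = f 0 x ∧ 0 ≤ f s x := fun s =>
    h.off s 0 (Nat.cast_nonneg s) le_rfl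
  obtain ⟨hF, hle⟩ := fam_env hN hS (v := fun s : ℕ => Gr.Vol.obs L (f s))
    (fun s => obs_cont h.opn (h.qp s).cont h.Lc h.LO fun x hx hL => (ho s x hx hL).2)
    (fun s => obs_cpt h.Lc) (fun s => obs_le) (fun x s s' hs => by
      simp only [Gr.Vol.obs]
      split_ifs
      exacts [min_le_min le_rfl (h.anti x (Nat.cast_le.2 hs)), le_rfl])
    ⟨_, MAo_lt_top (hq 0) h.Lc h.LO, fun s => vol_obs hN hS (le_max_right _ _) (hq s) (hq 0) h.Lc
      h.LO (fun x hx hL => (ho s x hx hL).1) fun x hx hL => (ho s x hx hL).2⟩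
  refine ⟨_, hF.qw, hF.cpt hN S zero_le_one, hF.an zero_le_one, fun x => ?_⟩
  obtain ⟨i, hi⟩ := (D.atl G).cover x
  have hO : q D (x, x) ∈ O := h.LO (interior_subset (h.sub ⟨x, rfl⟩))
  obtain ⟨b, hb⟩ := h.pole i.1 _ hO (q_mem_UN D hi hi)
  refine pole_diag (A := HA.of (D.atl G)) (i := i) hi (C := b) ?_
  filter_upwards [((continuous_q D).tendsto (x, x)).eventually
    (hb.and (h.opn.eventually_mem hO))] with y hy r hr h1
  obtain ⟨s, hs⟩ := exists_nat_ge (-Real.log r)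
  refine (lim_le _ s _).trans (EReal.coe_le_coe_iff.2 ((hle s _).trans ?_))
  rw [obs_eq (fun x hx hL => (ho s x hx hL).2) hy.2]
  refine (min_le_right _ _).trans (hy.1 s r h1 ?_)
  rw [← Real.exp_log hr]
  exact Real.exp_le_exp.2 (by linarith)

/-- **KEY** -/
theorem keyS : Sh72.KeyS := by
  intro n X _ _ _ _ A _ hA P H hH G _ _ D hc
  have : Countable G := Cov.A.countable D
  choose U h1 h2 h3 h4 using fun c : ℕ => exists_U D P hH (Nat.cast_nonneg c)
  refine ⟨⟨fun c => q D ⁻¹' (Zu (aN D) (U c) 1 ∪ Dg D),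
    fun c => (an_q_iff D).2 ((h3 c).union (an_Dg D)), fun c K hK =>
      ⟨isCompact_fst D ((h2 c).union (isCompact_Dg D)) hK,
        isCompact_snd D ((h2 c).union (isCompact_Dg D)) hK⟩, ?_⟩⟩
  rintro x y ⟨Z, hK, hZc, hZ, hx, hy⟩
  rcases subsingleton_or_nontrivial (Cn n) with hE | hE
  · have := discrete_of_subsingleton (HA.of (D.atl G))
    exact ⟨0, Or.inr ((q_mem_Dg D).2 (hZc.subsingleton hx hy))⟩
  have : Nontrivial (Cn (n + n)) := (appH n n).symm.toEquiv.nontrivial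
  obtain ⟨c, hc⟩ := (tendsto_natCast_atTop_atTop.eventually
    (key (cont_hw D H) hZ hK hZc hx (2 * finrank ℂ (Cn (n + n))))).exists
  refine ⟨c, Or.inl ?_⟩
  have e1 := hc _ (qw_q D (h1 c)) (h4 c x) y hy
  obtain ⟨W, V, σ, hW, hb⟩ := exists_bih (D := D) (D' := D) bq_div (x, y)
  have hV := hb.mg hW
  have h5 : ∀ᶠ z in 𝓝[≠] (q D (x, y)), z ∈ V := nhdsWithin_le_nhds (hb.opV.mem_nhds hV)
  rw [← hb.fg _ hW] at e1
  refine ((e1.comp (hb.hf _ hV) ?_ (by positivity)).of_le (u' := U c) (B := 0) ?_).hni_mul volume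
    zero_le_one (by rw [one_mul])
  · filter_upwards [h5, self_mem_nhdsWithin] with z hz hne h6
    exact hne ((hb.gf z hz).symm.trans ((congrArg _ h6).trans (hb.gf _ hV)))
  · filter_upwards [h5] with z hz
    rw [show q D (σ z) = z from hb.gf z hz]
    simp

/-- **GRED** -/
theorem gredK : Sk.GredK := Sh72.gredK_of_key keyS

end

end Crest.Agent.X261.Sh97.Key
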